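/-
R302 / AK / Defs : definitions for the proof of `ak_intertwiner` (B1-B3 of AK/Main.lean).   Owner: helper100.
 K(e)   = E_A(y* e y)                                     (akK)       e a projection of A
 h(e)   = 1_[c,oo)(K(e))                                  (akH)       "the cell e is heavy"
 H_P(e) = sup_{e' in P} h(e e')                           (akHP)      decreasing in P
 r(e)   = inf_P H_P(e)                                    (akR)       "there is an atom of mass >= c in e"
 AkPsi  = the projection valued measure Psi(e) = h0 r(e1 e) obtained from a configuration of maximal multiplicity.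
PLAN
 Heavy.lean : elementary properties of K, h, H_P, r;  (R3) covering, (R4) bounded multiplicity, (R5) r(1) != 0 if (AK) fails.
 Mult.lean  : maximal multiplicity ==> AkPsi.
 Twist.lean : twisted pinching z = lim_P sum_{e in P} (e1 e) y Psi(e).
 Extend.lean: e z = z Psi(e) for projections ==> a z in z A for all a in A.
-/
import Claimed.Agent.R302.ST.Hyp
import Claimed.Agent.R302.VN.Spec
import Claimed.Agent.R302.VN.Masa

set_option autoImplicit false

namespace Claimed.Agent.R302

open scoped InnerProductSpace
open Filter Topology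

universe u
variable {H : Type u} [NormedAddCommGroup H] [InnerProductSpace ℂ H] [CompleteSpace H]

noncomputable def akK (S : StData H) (y e : H →L[ℂ] H) : H →L[ℂ] H := S.EA (star y * e * y)

noncomputable def akH (S : StData H) (y : H →L[ℂ] H) (c : ℝ) (e : H →L[ℂ] H) : H →L[ℂ] H := vn_specGe (akK S y e) c

noncomputable def akHP (S : StData H) (y : H →L[ℂ] H) (c : ℝ) (P : StPart S) (e : H →L[ℂ] H) : H →L[ℂ] H :=
  vn_projSup (fun e' : P.cells => akH S y c (e * (e' : H →L[ℂ] H)))

noncomputable def akR (S : StData H) (y : H →L[ℂ] H) (c : ℝ) (e : H →L[ℂ] H) : H →L[ℂ] H :=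
  vn_projInf (fun P : StPart S => akHP S y c P e)

/-- a projection valued measure `Psi` on the projections of `A`, carried by `e1`, of total mass `h0`, all of whose values are heavy. -/
structure AkPsi (S : StData H) (y e1 h0 : H →L[ℂ] H) (c : ℝ) (Ψ : (H →L[ℂ] H) → (H →L[ℂ] H)) : Prop where
  e1_proj : S.IsProjA e1
  h0_proj : S.IsProjA h0
  h0_ne : h0 ≠ 0
  c_pos : 0 < c
  proj : ∀ e, S.IsProjA e → S.IsProjA (Ψ e)
  mono : ∀ e e', S.IsProjA e → S.IsProjA e' → e * e' = e → Ψ e * Ψ e' = Ψ e
  orth : ∀ e e', S.IsProjA e → S.IsProjA e' → e * e' = 0 → Ψ e * Ψ e' = 0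
  sum : ∀ P : StPart S, ∑ e ∈ P.cells, Ψ e = h0
  heavy : ∀ e, S.IsProjA e → c * (S.phi (Ψ e)).re ≤ (S.phi (akK S y (e1 * e) * Ψ e)).re

end Claimed.Agent.R302
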