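/-
R302 / AK / Extend : from projections to all of A.   Owner: helper100.   LEAF AK-Extend (proved by helper283).
 a = a* in A: vn_masa_exists_finite_spectrum_approx gives a_n = sum_j c_j e_j -> a in norm, |c_j| <= |a|.  a'_n := sum_j c_j Psi(e_j) in A, |a'_n| <= |a| (orthogonal projections),
 a_n z = z a'_n.  WOT ultralimit a' of a'_n (vn_exists_wotTendsto, vn_masa_wot_mem): a z = z a'.   General a = a_1 + i a_2.
-/
import Claimed.Agent.R302.AK.Defs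

set_option autoImplicit false

namespace Claimed.Agent.R302

open scoped InnerProductSpace
open Filter Topology

universe u
variable {H : Type u} [NormedAddCommGroup H] [InnerProductSpace ℂ H] [CompleteSpace H]

/-- a real combination of pairwise orthogonal projections is bounded by the largest coefficient -/
theorem ake_norm_le {n : ℕ} (p : Fin n → H →L[ℂ] H) (hp : ∀ j, IsStarProjection (p j))
    (horth : ∀ j k, j ≠ k → p j * p k = 0) (c : Fin n → ℝ) {C : ℝ} (hC0 : 0 ≤ C) (hC : ∀ j, |c j| ≤ C) :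
    ‖∑ j, (c j : ℂ) • p j‖ ≤ C := by
  have hq : IsStarProjection (∑ j, p j) :=
    vn_isStarProjection_sum Finset.univ p (fun j _ => hp j) (fun j _ k _ h => horth j k h)
  refine ContinuousLinearMap.opNorm_le_bound _ hC0 fun ξ => ?_
  have hinner : ∀ j k, ⟪p j ξ, p k ξ⟫_ℂ = if j = k then ((‖p j ξ‖ ^ 2 : ℝ) : ℂ) else 0 := by
    intro j k
    split_ifs with h
    · subst h
      rw [inner_self_eq_norm_sq_to_K]; norm_cast
    · rw [← vn_inner_sa (hp j).isSelfAdjoint, ← vn_mul_apply, horth j k h]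
      simp
  have h1 : ‖(∑ j, (c j : ℂ) • p j) ξ‖ ^ 2 = ∑ j, c j ^ 2 * ‖p j ξ‖ ^ 2 := by
    have h : ((‖(∑ j, (c j : ℂ) • p j) ξ‖ ^ 2 : ℝ) : ℂ) = ((∑ j, c j ^ 2 * ‖p j ξ‖ ^ 2 : ℝ) : ℂ) := by
      have h0 : (∑ j, (c j : ℂ) • p j) ξ = ∑ j, (c j : ℂ) • p j ξ := by
        simp
      rw [h0]
      have := inner_self_eq_norm_sq_to_K (𝕜 := ℂ) (∑ j, (c j : ℂ) • p j ξ)
      rw [Complex.ofReal_pow]
      rw [show ((‖∑ j, (c j : ℂ) • p j ξ‖ : ℝ) : ℂ) ^ 2 = ⟪∑ j, (c j : ℂ) • p j ξ, ∑ j, (c j : ℂ) • p j ξ⟫_ℂ from this.symm]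
      rw [sum_inner]
      rw [Complex.ofReal_sum]
      refine Finset.sum_congr rfl fun j _ => ?_
      rw [inner_sum, Finset.sum_eq_single j]
      · rw [inner_smul_left, inner_smul_right, hinner, if_pos rfl]
        simp only [Complex.conj_ofReal]
        push_cast
        ring
      · intro k _ hk
        rw [inner_smul_left, inner_smul_right, hinner, if_neg (Ne.symm hk)]
        simp
      · intro h; exact absurd (Finset.mem_univ j) h
    exact_mod_cast h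
  have h2 : ∑ j, ‖p j ξ‖ ^ 2 = ‖(∑ j, p j) ξ‖ ^ 2 := by
    have h : ((∑ j, ‖p j ξ‖ ^ 2 : ℝ) : ℂ) = ((‖(∑ j, p j) ξ‖ ^ 2 : ℝ) : ℂ) := by
      rw [← vn_proj_inner_self hq, sum_apply, inner_sum, Complex.ofReal_sum]
      exact Finset.sum_congr rfl fun j _ => (vn_proj_inner_self (hp j) ξ).symm
    exact_mod_cast h
  have h3 : ‖(∑ j, p j) ξ‖ ≤ ‖ξ‖ := by
    calc ‖(∑ j, p j) ξ‖ ≤ ‖∑ j, p j‖ * ‖ξ‖ := ContinuousLinearMap.le_opNorm _ _
      _ ≤ 1 * ‖ξ‖ := by gcongr; exact vn_proj_norm_le hq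
      _ = ‖ξ‖ := one_mul _
  have h4 : ‖(∑ j, (c j : ℂ) • p j) ξ‖ ^ 2 ≤ (C * ‖ξ‖) ^ 2 := by
    rw [h1]
    calc ∑ j, c j ^ 2 * ‖p j ξ‖ ^ 2 ≤ ∑ j, C ^ 2 * ‖p j ξ‖ ^ 2 := by
          refine Finset.sum_le_sum fun j _ => ?_
          have : c j ^ 2 ≤ C ^ 2 := sq_le_sq' (by linarith [(abs_le.1 (hC j)).1]) (abs_le.1 (hC j)).2
          gcongr
      _ = C ^ 2 * ‖(∑ j, p j) ξ‖ ^ 2 := by rw [← Finset.mul_sum, h2]
      _ ≤ C ^ 2 * ‖ξ‖ ^ 2 := by gcongr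
      _ = (C * ‖ξ‖) ^ 2 := by ring
  exact le_of_sq_le_sq h4 (by positivity)

/-- approximate version for selfadjoint `a`. -/
theorem ake_approx (S : StData H) {z : H →L[ℂ] H} (Ψ : (H →L[ℂ] H) → (H →L[ℂ] H))
    (hproj : ∀ e, S.IsProjA e → S.IsProjA (Ψ e))
    (horth : ∀ e e', S.IsProjA e → S.IsProjA e' → e * e' = 0 → Ψ e * Ψ e' = 0)
    (hint : ∀ e, S.IsProjA e → e * z = z * Ψ e) {a : H →L[ℂ] H} (ha : a ∈ S.A) (has : IsSelfAdjoint a)
    {ε : ℝ} (hε : 0 < ε) : ∃ b ∈ S.A, ‖b‖ ≤ ‖a‖ ∧ ‖a * z - z * b‖ ≤ ε * ‖z‖ := by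
  obtain ⟨n, e, c, h1, h2, -, h4, h5⟩ := vn_masa_exists_finite_spectrum_approx S.M S.A S.masa ha has hε
  have he : ∀ j, S.IsProjA (e j) := h1
  refine ⟨∑ j, (c j : ℂ) • Ψ (e j), ?_, ?_, ?_⟩
  · exact S.A.sum_mem fun j _ => S.A.smul_mem (hproj _ (he j)).1 _
  · exact ake_norm_le (fun j => Ψ (e j)) (fun j => (hproj _ (he j)).2)
      (fun j k hjk => horth _ _ (he j) (he k) (h2 j k hjk)) c (norm_nonneg _) h4
  · have h6 : z * ∑ j, (c j : ℂ) • Ψ (e j) = (∑ j, (c j : ℂ) • e j) * z := by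
      rw [Finset.mul_sum, Finset.sum_mul]
      refine Finset.sum_congr rfl fun j _ => ?_
      rw [mul_smul_comm, smul_mul_assoc, hint _ (he j)]
    rw [h6, ← sub_mul]
    calc ‖(a - ∑ j, (c j : ℂ) • e j) * z‖ ≤ ‖a - ∑ j, (c j : ℂ) • e j‖ * ‖z‖ := norm_mul_le _ _
      _ ≤ ε * ‖z‖ := by gcongr

/-- selfadjoint case. -/
theorem ake_sa (S : StData H) {z : H →L[ℂ] H} (Ψ : (H →L[ℂ] H) → (H →L[ℂ] H))
    (hproj : ∀ e, S.IsProjA e → S.IsProjA (Ψ e))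
    (horth : ∀ e e', S.IsProjA e → S.IsProjA e' → e * e' = 0 → Ψ e * Ψ e' = 0)
    (hint : ∀ e, S.IsProjA e → e * z = z * Ψ e) {a : H →L[ℂ] H} (ha : a ∈ S.A) (has : IsSelfAdjoint a) :
    ∃ a' ∈ S.A, a * z = z * a' := by
  have hex : ∀ n : ℕ, ∃ b ∈ S.A, ‖b‖ ≤ ‖a‖ ∧ ‖a * z - z * b‖ ≤ (1 / ((n : ℝ) + 1)) * ‖z‖ := fun n =>
    ake_approx S Ψ hproj horth hint ha has (by positivity)
  choose b hbA hbn hb using hex
  obtain ⟨a', ha'⟩ := vn_exists_wotTendsto (Filter.hyperfilter ℕ) b (C := ‖a‖) (Eventually.of_forall hbn)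
  refine ⟨a', vn_masa_wot_mem S.M S.A S.masa ha' (Eventually.of_forall hbA), ?_⟩
  have h1 : WotTendsto ((Filter.hyperfilter ℕ : Ultrafilter ℕ) : Filter ℕ) (fun n => z * b n) (z * a') := ha'.mul_left z
  have h2 : Tendsto (fun n => z * b n) atTop (𝓝 (a * z)) := by
    rw [tendsto_iff_norm_sub_tendsto_zero]
    have h3 : Tendsto (fun n : ℕ => (1 / ((n : ℝ) + 1)) * ‖z‖) atTop (𝓝 (0 * ‖z‖)) :=
      tendsto_one_div_add_atTop_nhds_zero_nat.mul_const _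
    rw [zero_mul] at h3
    refine squeeze_zero (fun _ => norm_nonneg _) (fun n => ?_) h3
    rw [norm_sub_rev]
    exact hb n
  have h4 : WotTendsto ((Filter.hyperfilter ℕ : Ultrafilter ℕ) : Filter ℕ) (fun n => z * b n) (a * z) :=
    ((vn_sotTendsto_of_tendsto h2).wotTendsto).mono_left Nat.hyperfilter_le_atTop
  exact h4.unique h1

theorem ak_extend (S : StData H) {z : H →L[ℂ] H} (hz : z ∈ S.M) (Ψ : (H →L[ℂ] H) → (H →L[ℂ] H))
    (hproj : ∀ e, S.IsProjA e → S.IsProjA (Ψ e))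
    (horth : ∀ e e', S.IsProjA e → S.IsProjA e' → e * e' = 0 → Ψ e * Ψ e' = 0)
    (hint : ∀ e, S.IsProjA e → e * z = z * Ψ e) : ∀ a ∈ S.A, ∃ a' ∈ S.A, a * z = z * a' := by
  intro a ha
  have hsa : star a ∈ S.A := star_mem ha
  obtain ⟨b1, hb1, h1⟩ := ake_sa S Ψ hproj horth hint (a := (1 / 2 : ℂ) • (a + star a))
    (S.A.smul_mem (S.A.add_mem ha hsa) _) (by
      rw [IsSelfAdjoint, star_smul, star_add, star_star, add_comm]
      congr 1
      simp)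
  obtain ⟨b2, hb2, h2⟩ := ake_sa S Ψ hproj horth hint (a := (Complex.I / 2 : ℂ) • (star a - a))
    (S.A.smul_mem (S.A.sub_mem hsa ha) _) (by
      rw [IsSelfAdjoint, star_smul, star_sub, star_star]
      have : star (Complex.I / 2 : ℂ) = -(Complex.I / 2) := by
        simp [neg_div]
      rw [this, neg_smul, ← smul_neg, neg_sub])
  refine ⟨b1 + Complex.I • b2, S.A.add_mem hb1 (S.A.smul_mem hb2 _), ?_⟩
  rw [mul_add, mul_smul_comm, ← h1, ← h2, ← smul_mul_assoc, ← add_mul]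
  congr 1
  rw [smul_smul]
  have : Complex.I * (Complex.I / 2) = -(1 / 2) := by
    rw [← mul_div_assoc, Complex.I_mul_I]; ring
  rw [this]
  module

end Claimed.Agent.R302
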