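/-
R302 / AK / Heavy : properties of K, h, H_P, r (see AK/Defs.lean).   Owner: helper100.
LEAVES:  AK-Heavy-basic (everything up to ak_R_tendsto),  AK-Heavy-main (ak_R_cover, ak_R_card, ak_R_one_ne).
Hints.
 * all operators live in the abelian algebra A: st_A_comm, Commute.mul_nonneg, vn_specGe_* , vn_projSup_*, vn_projInf_*, vn_sotTendsto_projInf.
 * ak_HP_anti: a cell e'' of P' lies below a cell e' of P, so e e'' = (e e') e'' ... <= e e', h monotone.
 * ak_sup_le_sum: commuting projections p_i, s = sum p_i:  (s - 1) p_i >= 0, so p_i <= 1_[1,oo)(s) (vn_le_specGe_of) and 1_[1,oo)(s) <= s (vn_smul_specGe_le).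
 * ak_HP_le_sum: for P0 <= P every cell e'' of P is below a cell e' of P0: e e'' = (e e') e'', so h(e e'') <= H_P(e e').
 * ak_R_cover: phi(p) = phi(p H_P(e)) <= sum_{e' in P0} phi(p H_P(e e')) -> sum phi(p r(e e')) = 0; faithfulness.
 * ak_R_card: c card(F) h0 <= sum_F c r(e) <= sum_F c h(e) <= sum_F K(e) = K(sum_F e) <= |y|^2.
 * ak_R_one_ne: t = phi(1), c = eps/(2(t+1)).  hnot with G = |y|^2: eps <= |y|^2 t, so c <= |y|^2.  G_P = c(1-H_P) + |y|^2 H_P, H_P = H_P(1), dominates all K(e), e in P: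
   eps <= phi(G_P) <= eps/2 + |y|^2 phi(H_P).  phi(H_P) -> phi(r(1)).
-/
import Claimed.Agent.R302.AK.Defs

set_option autoImplicit false

namespace Claimed.Agent.R302

open scoped InnerProductSpace
open Filter Topology

universe u
variable {H : Type u} [NormedAddCommGroup H] [InnerProductSpace ℂ H] [CompleteSpace H]
variable (S : StData H) {y : H →L[ℂ] H} (hy : y ∈ S.M) (c : ℝ)

/-! ### projections of `A` -/

theorem ak_proj_mul {e e' : H →L[ℂ] H} (he : S.IsProjA e) (he' : S.IsProjA e') : S.IsProjA (e * e') :=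
  ⟨mul_mem he.1 he'.1, he.2.mul he'.2 (st_A_comm S he.1 he'.1)⟩

theorem ak_proj_zero : S.IsProjA 0 := ⟨zero_mem _, IsStarProjection.zero _⟩

theorem ak_proj_one : S.IsProjA 1 := ⟨one_mem _, IsStarProjection.one _⟩

theorem ak_proj_sub {e : H →L[ℂ] H} (he : S.IsProjA e) : S.IsProjA (1 - e) :=
  ⟨sub_mem (one_mem _) he.1, he.2.one_sub⟩

theorem ak_proj_sum (F : Finset (H →L[ℂ] H)) (hF : ∀ e ∈ F, S.IsProjA e) (horth : ∀ e ∈ F, ∀ e' ∈ F, e ≠ e' → e * e' = 0) :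
    S.IsProjA (∑ e ∈ F, e) :=
  ⟨sum_mem fun e he => (hF e he).1, vn_isStarProjection_sum F (fun e => e) (fun e he => (hF e he).2) horth⟩

/-- order of projections of `A` -/
theorem ak_proj_le_iff {e e' : H →L[ℂ] H} (he : S.IsProjA e) (he' : S.IsProjA e') : e ≤ e' ↔ e * e' = e :=
  he.2.le_iff_mul_eq_left he'.2

/-- finitely many commuting projections: the supremum is dominated by the sum -/
theorem ak_sup_le_sum {κ : Type*} [Fintype κ] (p : κ → H →L[ℂ] H) (hp : ∀ k, S.IsProjA (p k)) :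
    vn_projSup p ≤ ∑ k, p k := by
  classical
  set s : H →L[ℂ] H := ∑ k, p k with hs
  have hs0 : 0 ≤ s := Finset.sum_nonneg fun k _ => (hp k).2.nonneg
  have hone : (vn_sc 1 : H →L[ℂ] H) = 1 := by simp [vn_sc]
  have hle : ∀ k, p k ≤ vn_specGe s 1 := by
    intro k
    refine vn_le_specGe_of hs0.isSelfAdjoint 1 (hp k).2
      (Commute.sum_right _ _ _ fun j _ => st_A_comm S (hp k).1 (hp j).1) ?_
    have e1 : (s - vn_sc 1) * p k = ∑ j ∈ Finset.univ.erase k, p j * p k := by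
      rw [hone, hs, ← Finset.add_sum_erase Finset.univ p (Finset.mem_univ k), sub_mul, add_mul, one_mul,
        (hp k).2.isIdempotentElem.eq, Finset.sum_mul]
      abel
    rw [e1]
    exact Finset.sum_nonneg fun j _ =>
      Commute.mul_nonneg (hp j).2.nonneg (hp k).2.nonneg (st_A_comm S (hp j).1 (hp k).1)
  have h1 : vn_projSup p ≤ vn_specGe s 1 :=
    (vn_projSup_le_iff (fun k => (hp k).2) (vn_specGe_isStarProjection s 1)).2 hle
  have h2 := vn_smul_specGe_le hs0 1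
  rw [hone, one_mul] at h2
  exact h1.trans h2

/-! ### `K` -/

include hy

theorem ak_conj_mem {e : H →L[ℂ] H} (he : e ∈ S.A) : star y * e * y ∈ S.M :=
  mul_mem (mul_mem (star_mem hy) (st_A_le_M S he)) hy

theorem ak_K_mem {e : H →L[ℂ] H} (he : e ∈ S.A) : akK S y e ∈ S.A := st_EA_mem S (ak_conj_mem S hy he)

theorem ak_K_nonneg {e : H →L[ℂ] H} (he : S.IsProjA e) : 0 ≤ akK S y e :=
  st_EA_nonneg S (ak_conj_mem S hy he.1) (star_left_conjugate_nonneg he.2.nonneg y)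

theorem ak_K_add {e e' : H →L[ℂ] H} (he : e ∈ S.A) (he' : e' ∈ S.A) : akK S y (e + e') = akK S y e + akK S y e' := by
  rw [akK, mul_add, add_mul, st_EA_add S (ak_conj_mem S hy he) (ak_conj_mem S hy he')]
  rfl

theorem ak_K_sum (F : Finset (H →L[ℂ] H)) (hF : ∀ e ∈ F, e ∈ S.A) : akK S y (∑ e ∈ F, e) = ∑ e ∈ F, akK S y e := by
  rw [akK, Finset.mul_sum, Finset.sum_mul, st_EA_sum S F _ fun e he => ak_conj_mem S hy (hF e he)]
  rfl

theorem ak_K_mono {e e' : H →L[ℂ] H} (he : S.IsProjA e) (he' : S.IsProjA e') (h : e * e' = e) : akK S y e ≤ akK S y e' :=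
  st_EA_mono S (ak_conj_mem S hy he.1) (ak_conj_mem S hy he'.1)
    (star_left_conjugate_le_conjugate ((ak_proj_le_iff S he he').2 h) y)

theorem ak_K_le {e : H →L[ℂ] H} (he : S.IsProjA e) : akK S y e ≤ vn_sc (‖y‖ ^ 2) := by
  have hsc : (vn_sc (‖y‖ ^ 2) : H →L[ℂ] H) ∈ S.A := S.A.smul_mem (one_mem _) _
  have h1 : star y * e * y ≤ star y * 1 * y := star_left_conjugate_le_conjugate (vn_proj_le_one he.2) y
  have h2 : star y * 1 * y ≤ vn_sc (‖y‖ ^ 2) := by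
    have h3 := vn_le_sc_norm (IsSelfAdjoint.star_mul_self y)
    rwa [CStarRing.norm_star_mul_self, ← pow_two, ← mul_one (star y)] at h3
  have h4 := st_EA_mono S (ak_conj_mem S hy he.1) (st_A_le_M S hsc) (h1.trans h2)
  rwa [st_EA_of_mem S hsc] at h4

/-! ### `h` -/

theorem ak_H_proj {e : H →L[ℂ] H} (he : S.IsProjA e) : S.IsProjA (akH S y c e) :=
  ⟨st_mem_A_of_comm S (vn_specGe_mem S.M (st_A_le_M S (ak_K_mem S hy he.1)) c)
      fun _ ha => (vn_commute_specGe (st_A_comm S ha (ak_K_mem S hy he.1)) c).symm,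
    vn_specGe_isStarProjection _ _⟩

theorem ak_H_mono {e e' : H →L[ℂ] H} (he : S.IsProjA e) (he' : S.IsProjA e') (h : e * e' = e) :
    akH S y c e ≤ akH S y c e' :=
  vn_specGe_mono_of_commute (ak_K_nonneg S hy he).isSelfAdjoint (ak_K_nonneg S hy he').isSelfAdjoint
    (ak_K_mono S hy he he' h) (st_A_comm S (ak_K_mem S hy he.1) (ak_K_mem S hy he'.1)) c

theorem ak_H_le {e : H →L[ℂ] H} (he : S.IsProjA e) : vn_sc c * akH S y c e ≤ akK S y e :=
  vn_smul_specGe_le (ak_K_nonneg S hy he) c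

/-- `(K(e) - c) q ≥ 0` for every projection `q ≤ h(e)` of `A`. -/
theorem ak_H_heavy {e q : H →L[ℂ] H} (he : S.IsProjA e) (hq : S.IsProjA q) (hle : q ≤ akH S y c e) :
    0 ≤ (akK S y e - vn_sc c) * q := by
  have hh := ak_H_proj S hy c he
  have hsc : (vn_sc c : H →L[ℂ] H) ∈ S.A := S.A.smul_mem (one_mem _) _
  have h1 : akH S y c e * q = q := (hq.2.le_iff_mul_eq_right hh.2).1 hle
  have h2 : 0 ≤ (akK S y e - vn_sc c) * akH S y c e := vn_specGe_nonneg (ak_K_nonneg S hy he).isSelfAdjoint c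
  have h3 := Commute.mul_nonneg h2 hq.2.nonneg
    (st_A_comm S (mul_mem (sub_mem (ak_K_mem S hy he.1) hsc) hh.1) hq.1)
  rwa [mul_assoc, h1] at h3

/-- `(K(e) - c) q ≤ 0` for every projection `q ≤ 1 - h(e)` of `A`. -/
theorem ak_H_light {e q : H →L[ℂ] H} (he : S.IsProjA e) (hq : S.IsProjA q) (hle : q * akH S y c e = 0) :
    (akK S y e - vn_sc c) * q ≤ 0 := by
  have hh := ak_H_proj S hy c he
  have hsc : (vn_sc c : H →L[ℂ] H) ∈ S.A := S.A.smul_mem (one_mem _) _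
  have h1 : (1 - akH S y c e) * q = q := by
    rw [sub_mul, one_mul, (st_A_comm S hh.1 hq.1).eq, hle, sub_zero]
  have h2 : 0 ≤ -((akK S y e - vn_sc c) * (1 - akH S y c e)) :=
    neg_nonneg.2 (vn_specGe_compl_nonpos (ak_K_nonneg S hy he).isSelfAdjoint c)
  have h3 := Commute.mul_nonneg h2 hq.2.nonneg
    (st_A_comm S (neg_mem (mul_mem (sub_mem (ak_K_mem S hy he.1) hsc) (sub_mem (one_mem _) hh.1))) hq.1)
  rw [neg_mul, mul_assoc, h1, neg_nonneg] at h3
  exact h3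

omit hy in
theorem ak_H_zero (hc : 0 < c) : akH S y c 0 = 0 := by
  have h0 : akK S y 0 = 0 := by
    rw [akK, mul_zero, zero_mul]
    exact st_EA_of_mem S (zero_mem _)
  have hsa : IsSelfAdjoint (0 : H →L[ℂ] H) := IsSelfAdjoint.zero _
  have h1 : vn_specGe (0 : H →L[ℂ] H) c ≤ vn_specGt 0 0 := vn_specGe_le_specGt hsa hc
  rw [vn_specGt_eq_zero hsa (vn_sc_nonneg le_rfl)] at h1
  rw [akH, h0]
  exact le_antisymm h1 (vn_specGe_isStarProjection _ _).nonneg

/-! ### `H_P` -/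

theorem ak_HP_proj (P : StPart S) {e : H →L[ℂ] H} (he : S.IsProjA e) : S.IsProjA (akHP S y c P e) := by
  have hp : ∀ e' : P.cells, S.IsProjA (akH S y c (e * (e' : H →L[ℂ] H))) := fun e' =>
    ak_H_proj S hy c (ak_proj_mul S he (P.proj e' e'.2))
  exact ⟨st_mem_A_of_comm S (vn_projSup_mem S.M (fun k => (hp k).2) fun k => st_A_le_M S (hp k).1)
      fun _ ha => (vn_commute_projSup (fun k => (hp k).2) fun k => st_A_comm S ha (hp k).1).symm,
    vn_projSup_isStarProjection _⟩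

theorem ak_H_le_HP (P : StPart S) {e e' : H →L[ℂ] H} (he : S.IsProjA e) (he' : e' ∈ P.cells) :
    akH S y c (e * e') ≤ akHP S y c P e :=
  vn_le_projSup (p := fun e' : P.cells => akH S y c (e * (e' : H →L[ℂ] H)))
    (fun e' => (ak_H_proj S hy c (ak_proj_mul S he (P.proj e' e'.2))).2) ⟨e', he'⟩

theorem ak_HP_le_H (P : StPart S) {e : H →L[ℂ] H} (he : S.IsProjA e) : akHP S y c P e ≤ akH S y c e := by
  refine (vn_projSup_le_iff (fun e' : P.cells => (ak_H_proj S hy c (ak_proj_mul S he (P.proj e' e'.2))).2)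
    (ak_H_proj S hy c he).2).2 fun e' => ?_
  refine ak_H_mono S hy c (ak_proj_mul S he (P.proj e' e'.2)) he ?_
  rw [mul_assoc, (st_A_comm S (P.proj e' e'.2).1 he.1).eq, ← mul_assoc, he.2.isIdempotentElem.eq]

theorem ak_HP_anti {P P' : StPart S} (h : P ≤ P') {e : H →L[ℂ] H} (he : S.IsProjA e) :
    akHP S y c P' e ≤ akHP S y c P e := by
  refine (vn_projSup_le_iff (fun e' : P'.cells => (ak_H_proj S hy c (ak_proj_mul S he (P'.proj e' e'.2))).2)
    (ak_HP_proj S hy c P he).2).2 fun e'' => ?_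
  obtain ⟨e', he', h1⟩ := h e'' e''.2
  refine le_trans ?_ (ak_H_le_HP S hy c P he he')
  refine ak_H_mono S hy c (ak_proj_mul S he (P'.proj e'' e''.2)) (ak_proj_mul S he (P.proj e' he')) ?_
  have hc1 : Commute (e'' : H →L[ℂ] H) e := st_A_comm S (P'.proj e'' e''.2).1 he.1
  have hc2 : Commute (e'' : H →L[ℂ] H) e' := st_A_comm S (P'.proj e'' e''.2).1 (P.proj e' he').1
  calc e * (e'' : H →L[ℂ] H) * (e * e') = e * ((e'' : H →L[ℂ] H) * e) * e' := by simp only [mul_assoc]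
    _ = (e * e) * ((e'' : H →L[ℂ] H) * e') := by rw [hc1.eq]; simp only [mul_assoc]
    _ = e * (e'' : H →L[ℂ] H) := by rw [he.2.isIdempotentElem.eq, hc2.eq, h1]

theorem ak_HP_mono (P : StPart S) {e e' : H →L[ℂ] H} (he : S.IsProjA e) (he' : S.IsProjA e') (h : e * e' = e) :
    akHP S y c P e ≤ akHP S y c P e' := by
  refine (vn_projSup_le_iff (fun f : P.cells => (ak_H_proj S hy c (ak_proj_mul S he (P.proj f f.2))).2)
    (ak_HP_proj S hy c P he').2).2 fun f => ?_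
  refine le_trans ?_ (ak_H_le_HP S hy c P he' f.2)
  refine ak_H_mono S hy c (ak_proj_mul S he (P.proj f f.2)) (ak_proj_mul S he' (P.proj f f.2)) ?_
  have hc1 : Commute (f : H →L[ℂ] H) e' := st_A_comm S (P.proj f f.2).1 he'.1
  calc e * (f : H →L[ℂ] H) * (e' * f) = e * ((f : H →L[ℂ] H) * e') * f := by simp only [mul_assoc]
    _ = (e * e') * ((f : H →L[ℂ] H) * f) := by rw [hc1.eq]; simp only [mul_assoc]
    _ = e * (f : H →L[ℂ] H) := by rw [h, (P.proj f f.2).2.isIdempotentElem.eq]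

theorem ak_HP_le_sum {P0 P : StPart S} (h : P0 ≤ P) {e : H →L[ℂ] H} (he : S.IsProjA e) :
    akHP S y c P e ≤ ∑ e' ∈ P0.cells, akHP S y c P (e * e') := by
  have hq : ∀ e' : P0.cells, S.IsProjA (akHP S y c P (e * (e' : H →L[ℂ] H))) := fun e' =>
    ak_HP_proj S hy c P (ak_proj_mul S he (P0.proj e' e'.2))
  have h1 := ak_sup_le_sum S (fun e' : P0.cells => akHP S y c P (e * (e' : H →L[ℂ] H))) hq
  rw [Finset.sum_coe_sort P0.cells (fun e' => akHP S y c P (e * e'))] at h1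
  refine le_trans ?_ h1
  refine (vn_projSup_le_iff (fun f : P.cells => (ak_H_proj S hy c (ak_proj_mul S he (P.proj f f.2))).2)
    (vn_projSup_isStarProjection _)).2 fun e'' => ?_
  obtain ⟨e', he', h2⟩ := h e'' e''.2
  refine le_trans ?_ (vn_le_projSup (fun k => (hq k).2) ⟨e', he'⟩)
  have h3 := ak_H_le_HP S hy c P (ak_proj_mul S he (P0.proj e' he')) e''.2
  rwa [mul_assoc, h2] at h3

/-! ### `r` -/

theorem ak_R_proj {e : H →L[ℂ] H} (he : S.IsProjA e) : S.IsProjA (akR S y c e) := by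
  have hp : ∀ P : StPart S, S.IsProjA (akHP S y c P e) := fun P => ak_HP_proj S hy c P he
  exact ⟨st_mem_A_of_comm S (vn_projInf_mem S.M (fun k => (hp k).2) fun k => st_A_le_M S (hp k).1)
      fun _ ha => (vn_commute_projInf (fun k => (hp k).2) fun k => st_A_comm S ha (hp k).1).symm,
    vn_projInf_isStarProjection _⟩

theorem ak_R_le_HP (P : StPart S) {e : H →L[ℂ] H} (he : S.IsProjA e) : akR S y c e ≤ akHP S y c P e :=
  vn_projInf_le (p := fun P : StPart S => akHP S y c P e) (fun P => (ak_HP_proj S hy c P he).2) P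

theorem ak_R_le_H {e : H →L[ℂ] H} (he : S.IsProjA e) : akR S y c e ≤ akH S y c e := by
  obtain ⟨P⟩ := st_part_nonempty S
  exact (ak_R_le_HP S hy c P he).trans (ak_HP_le_H S hy c P he)

theorem ak_R_mono {e e' : H →L[ℂ] H} (he : S.IsProjA e) (he' : S.IsProjA e') (h : e * e' = e) :
    akR S y c e ≤ akR S y c e' :=
  (vn_le_projInf_iff (fun P => (ak_HP_proj S hy c P he').2) (ak_R_proj S hy c he).2).2 fun P =>
    (ak_R_le_HP S hy c P he).trans (ak_HP_mono S hy c P he he' h)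

theorem ak_R_zero (hc : 0 < c) : akR S y c 0 = 0 := by
  have h1 := ak_R_le_H S hy c (ak_proj_zero S)
  rw [ak_H_zero S c hc] at h1
  exact le_antisymm h1 (ak_R_proj S hy c (ak_proj_zero S)).2.nonneg

theorem ak_R_tendsto {e : H →L[ℂ] H} (he : S.IsProjA e) (ξ : H) :
    Tendsto (fun P : StPart S => akHP S y c P e ξ) atTop (𝓝 (akR S y c e ξ)) :=
  vn_sotTendsto_projInf (p := fun P : StPart S => akHP S y c P e) (fun P => (ak_HP_proj S hy c P he).2)
    (fun _ _ h => ak_HP_anti S hy c h he) ξ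

/-! ### the three main properties -/

omit hy [CompleteSpace H] in
/-- continuity of the real quadratic form along a strongly convergent net -/
theorem ak_tendsto_quad {ι : Type*} {l : Filter ι} {z : ι → H} {z₀ : H} (h : Tendsto z l (𝓝 z₀)) (ξ : H) :
    Tendsto (fun i => (⟪ξ, z i⟫_ℂ).re) l (𝓝 (⟪ξ, z₀⟫_ℂ).re) :=
  (Complex.continuous_re.tendsto _).comp (Filter.Tendsto.inner tendsto_const_nhds h)

/-- (R3) covering. -/
theorem ak_R_cover (P0 : StPart S) {e p : H →L[ℂ] H} (he : S.IsProjA e) (hp : S.IsProjA p) (hle : p ≤ akR S y c e)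
    (h0 : ∀ e' ∈ P0.cells, p * akR S y c (e * e') = 0) : p = 0 := by
  set ξ : H := p S.Om with hξ
  have hpξ : p ξ = ξ := vn_proj_apply_apply hp.2 _
  have hlim : Tendsto (fun P : StPart S => ∑ e' ∈ P0.cells, (⟪ξ, akHP S y c P (e * e') ξ⟫_ℂ).re) atTop
      (𝓝 (∑ e' ∈ P0.cells, (⟪ξ, akR S y c (e * e') ξ⟫_ℂ).re)) :=
    tendsto_finset_sum _ fun e' he' =>
      ak_tendsto_quad (ak_R_tendsto S hy c (ak_proj_mul S he (P0.proj e' he')) ξ) ξ
  have hzero : ∑ e' ∈ P0.cells, (⟪ξ, akR S y c (e * e') ξ⟫_ℂ).re = 0 := by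
    refine Finset.sum_eq_zero fun e' he' => ?_
    have hr := ak_R_proj S hy c (ak_proj_mul S he (P0.proj e' he'))
    have h1 : akR S y c (e * e') ξ = 0 := by
      have h2 : (akR S y c (e * e') * p) S.Om = 0 := by
        rw [(st_A_comm S hr.1 hp.1).eq, h0 e' he']
        rfl
      exact h2
    rw [h1, inner_zero_right, Complex.zero_re]
  have hev : ∀ᶠ P : StPart S in atTop,
      ‖ξ‖ ^ 2 ≤ ∑ e' ∈ P0.cells, (⟪ξ, akHP S y c P (e * e') ξ⟫_ℂ).re := by
    filter_upwards [eventually_ge_atTop P0] with P hP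
    have h1 : p ≤ ∑ e' ∈ P0.cells, akHP S y c P (e * e') :=
      hle.trans ((ak_R_le_HP S hy c P he).trans (ak_HP_le_sum S hy c hP he))
    have h2 := vn_re_inner_le_of_le h1 ξ
    rw [vn_proj_inner_self hp.2, hpξ, Complex.ofReal_re, ContinuousLinearMap.sum_apply, inner_sum,
      Complex.re_sum] at h2
    exact h2
  have h3 := ge_of_tendsto hlim hev
  rw [hzero] at h3
  have hξ0 : ξ = 0 := by
    have h4 : ‖ξ‖ ^ 2 = 0 := le_antisymm h3 (by positivity)
    exact norm_eq_zero.1 (pow_eq_zero_iff two_ne_zero |>.1 h4)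
  exact S.sep p (st_A_le_M S hp.1) hξ0

/-- (R4) bounded multiplicity. -/
theorem ak_R_card (hc : 0 < c) (F : Finset (H →L[ℂ] H)) (hF : ∀ e ∈ F, S.IsProjA e)
    (horth : ∀ e ∈ F, ∀ e' ∈ F, e ≠ e' → e * e' = 0) {h0 : H →L[ℂ] H} (hh0 : S.IsProjA h0) (hne : h0 ≠ 0)
    (hle : ∀ e ∈ F, h0 ≤ akR S y c e) : (F.card : ℝ) * c ≤ ‖y‖ ^ 2 := by
  obtain ⟨ξ, hξ⟩ : ∃ ξ, h0 ξ ≠ 0 := by
    by_contra hcon
    simp only [not_exists, not_not] at hcon
    exact hne (ContinuousLinearMap.ext hcon)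
  set η : H := h0 ξ with hη
  have hη' : h0 η = η := vn_proj_apply_apply hh0.2 _
  have hpos : 0 < ‖η‖ ^ 2 := vn_norm_sq_pos hξ
  -- every cell of `F` is heavy on `η`
  have h1 : ∀ e ∈ F, c * ‖η‖ ^ 2 ≤ (⟪η, akK S y e η⟫_ℂ).re := by
    intro e he
    have h2 := vn_re_inner_le_of_le (ak_H_le S hy c (hF e he)) η
    have h3 := vn_re_inner_le_of_le ((hle e he).trans (ak_R_le_H S hy c (hF e he))) η
    rw [vn_proj_inner_self hh0.2, hη', Complex.ofReal_re] at h3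
    have h4 : (⟪η, (vn_sc c * akH S y c e : H →L[ℂ] H) η⟫_ℂ).re = c * (⟪η, akH S y c e η⟫_ℂ).re := by
      rw [vn_mul_apply, vn_sc_apply, inner_smul_right, Complex.re_ofReal_mul]
    rw [h4] at h2
    exact (mul_le_mul_of_nonneg_left h3 hc.le).trans h2
  have h5 : (⟪η, akK S y (∑ e ∈ F, e) η⟫_ℂ).re = ∑ e ∈ F, (⟪η, akK S y e η⟫_ℂ).re := by
    rw [ak_K_sum S hy F fun e he => (hF e he).1, ContinuousLinearMap.sum_apply, inner_sum, Complex.re_sum]
  have h6 := vn_re_inner_le_of_le (ak_K_le S hy (ak_proj_sum S F hF horth)) η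
  have h7 : (⟪η, (vn_sc (‖y‖ ^ 2) : H →L[ℂ] H) η⟫_ℂ).re = ‖y‖ ^ 2 * ‖η‖ ^ 2 := by
    rw [vn_sc_apply, inner_smul_right, Complex.re_ofReal_mul, inner_self_eq_norm_sq_to_K]
    norm_cast
  rw [h5, h7] at h6
  have h8 : (F.card : ℝ) * (c * ‖η‖ ^ 2) ≤ ∑ e ∈ F, (⟪η, akK S y e η⟫_ℂ).re := by
    rw [← nsmul_eq_mul]
    exact Finset.card_nsmul_le_sum _ _ _ h1
  have h9 : ((F.card : ℝ) * c) * ‖η‖ ^ 2 ≤ ‖y‖ ^ 2 * ‖η‖ ^ 2 := by
    calc ((F.card : ℝ) * c) * ‖η‖ ^ 2 = (F.card : ℝ) * (c * ‖η‖ ^ 2) := by ring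
      _ ≤ _ := h8.trans h6
  exact le_of_mul_le_mul_right h9 hpos

omit hy in
theorem ak_sc_mem (s : ℝ) : (vn_sc s : H →L[ℂ] H) ∈ S.A := S.A.smul_mem S.A.one_mem _

omit hy in
theorem ak_phi_sc_mul (s : ℝ) (q : H →L[ℂ] H) : (S.phi (vn_sc s * q)).re = s * (S.phi q).re := by
  rw [smul_mul_assoc, one_mul, st_phi_smul, Complex.re_ofReal_mul]

omit hy in
theorem ak_phi_one : (S.phi 1).re = ‖S.Om‖ ^ 2 := by
  unfold StData.phi
  rw [ContinuousLinearMap.one_apply, inner_self_eq_norm_sq_to_K]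
  norm_cast

/-- the dominating function `G_P = c (1 - H_P) + ‖y‖² H_P`. -/
theorem ak_G_dom {c : ℝ} (P : StPart S) {e : H →L[ℂ] H} (he : e ∈ P.cells) :
    akK S y e ≤ vn_sc c * (1 - akHP S y c P 1) + vn_sc (‖y‖ ^ 2) * akHP S y c P 1 := by
  have heA := P.proj e he
  have hHp : S.IsProjA (akHP S y c P 1) := ak_HP_proj S hy c P (ak_proj_one S)
  have hq : S.IsProjA (1 - akHP S y c P 1) := ak_proj_sub S hHp
  have hh : S.IsProjA (akH S y c e) := ak_H_proj S hy c heA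
  have hK : akK S y e ∈ S.A := ak_K_mem S hy heA.1
  have h1 : akH S y c e ≤ akHP S y c P 1 := by
    have := ak_H_le_HP S hy c P (ak_proj_one S) he
    rwa [one_mul] at this
  have h2 : (1 - akHP S y c P 1) * akH S y c e = 0 := by
    rw [sub_mul, one_mul, (hh.2.le_iff_mul_eq_right hHp.2).1 h1, sub_self]
  have h3 := ak_H_light S hy c heA hq h2
  have h4 : 0 ≤ (vn_sc (‖y‖ ^ 2) - akK S y e) * akHP S y c P 1 :=
    Commute.mul_nonneg (sub_nonneg.2 (ak_K_le S hy heA)) hHp.2.nonneg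
      (st_A_comm S (sub_mem (ak_sc_mem S _) hK) hHp.1)
  have h5 : vn_sc c * (1 - akHP S y c P 1) + vn_sc (‖y‖ ^ 2) * akHP S y c P 1 - akK S y e =
      (vn_sc (‖y‖ ^ 2) - akK S y e) * akHP S y c P 1 - (akK S y e - vn_sc c) * (1 - akHP S y c P 1) := by
    noncomm_ring
  rw [← sub_nonneg, h5]
  exact sub_nonneg.2 (h3.trans h4)

/-- (R5) if (AK) fails there are atoms. -/
theorem ak_R_one_ne (ε : ℝ) (hε : 0 < ε)
    (hnot : ¬ ∃ P : StPart S, ∃ G ∈ S.A, 0 ≤ G ∧ ‖G‖ ≤ ‖y‖ ^ 2 ∧ (∀ e ∈ P.cells, S.EA (star y * e * y) ≤ G) ∧ (S.phi G).re < ε) :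
    ∃ c : ℝ, 0 < c ∧ akR S y c 1 ≠ 0 := by
  set t : ℝ := ‖S.Om‖ ^ 2 with ht
  have ht0 : 0 ≤ t := by positivity
  have hY0 : 0 ≤ ‖y‖ ^ 2 := by positivity
  set c : ℝ := ε / (2 * (t + 1)) with hc
  have hc0 : 0 < c := by positivity
  have hct : c * t ≤ ε / 2 := by
    rw [hc, div_mul_eq_mul_div, div_le_div_iff₀ (by positivity) (by positivity)]
    nlinarith
  refine ⟨c, hc0, fun hr => ?_⟩
  -- the constant `‖y‖²` dominates
  have h1 : ε ≤ ‖y‖ ^ 2 * t := by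
    by_contra hlt
    rw [not_le] at hlt
    obtain ⟨P⟩ := st_part_nonempty S
    refine hnot ⟨P, vn_sc (‖y‖ ^ 2), ak_sc_mem S _, vn_sc_nonneg hY0,
      vn_norm_le_of_le_sc (vn_sc_nonneg hY0) hY0 le_rfl, fun e he => ak_K_le S hy (P.proj e he), ?_⟩
    have h2 := ak_phi_sc_mul S (‖y‖ ^ 2) 1
    rw [mul_one, ak_phi_one] at h2
    rw [h2]
    exact hlt
  have hcy : c ≤ ‖y‖ ^ 2 := by
    rw [hc, div_le_iff₀ (by positivity)]
    nlinarith
  -- the functions `G_P`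
  have h2 : ∀ P : StPart S, ε / 2 ≤ ‖y‖ ^ 2 * (⟪S.Om, akHP S y c P 1 S.Om⟫_ℂ).re := by
    intro P
    have hHp : S.IsProjA (akHP S y c P 1) := ak_HP_proj S hy c P (ak_proj_one S)
    have hq : S.IsProjA (1 - akHP S y c P 1) := ak_proj_sub S hHp
    by_contra hlt
    rw [not_le] at hlt
    have hG0 : 0 ≤ vn_sc c * (1 - akHP S y c P 1) + vn_sc (‖y‖ ^ 2) * akHP S y c P 1 :=
      add_nonneg (Commute.mul_nonneg (vn_sc_nonneg hc0.le) hq.2.nonneg (vn_sc_commute _ _))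
        (Commute.mul_nonneg (vn_sc_nonneg hY0) hHp.2.nonneg (vn_sc_commute _ _))
    have hGle : vn_sc c * (1 - akHP S y c P 1) + vn_sc (‖y‖ ^ 2) * akHP S y c P 1 ≤ vn_sc (‖y‖ ^ 2) := by
      calc vn_sc c * (1 - akHP S y c P 1) + vn_sc (‖y‖ ^ 2) * akHP S y c P 1
          ≤ vn_sc (‖y‖ ^ 2) * (1 - akHP S y c P 1) + vn_sc (‖y‖ ^ 2) * akHP S y c P 1 :=
            add_le_add_left (vn_sc_mul_proj_mono hq.2 hcy) _
        _ = vn_sc (‖y‖ ^ 2) := by noncomm_ring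
    refine hnot ⟨P, vn_sc c * (1 - akHP S y c P 1) + vn_sc (‖y‖ ^ 2) * akHP S y c P 1,
      add_mem (mul_mem (ak_sc_mem S _) hq.1) (mul_mem (ak_sc_mem S _) hHp.1), hG0,
      vn_norm_le_of_le_sc hG0 hY0 hGle, fun e he => ak_G_dom S hy P he, ?_⟩
    rw [st_phi_add, Complex.add_re, ak_phi_sc_mul, ak_phi_sc_mul, st_phi_sub, Complex.sub_re, ak_phi_one]
    have h3 : 0 ≤ (S.phi (akHP S y c P 1)).re := (st_phi_nonneg S hHp.2.nonneg).1
    have h4 : ‖y‖ ^ 2 * (S.phi (akHP S y c P 1)).re < ε / 2 := hlt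
    nlinarith
  -- the limit
  have h3 := ak_tendsto_quad (ak_R_tendsto S hy c (ak_proj_one S) S.Om) S.Om
  rw [hr, ContinuousLinearMap.zero_apply, inner_zero_right, Complex.zero_re] at h3
  have h4 := ge_of_tendsto' (h3.const_mul (‖y‖ ^ 2)) h2
  rw [mul_zero] at h4
  linarith

end Claimed.Agent.R302
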