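/-
R302 / AK / Mult : maximal multiplicity (B2).   Owner: helper100.   LEAF AK-Mult (proved by helper283).
 Mult k := there are an orthogonal family F of k projections of A and a nonzero projection h0 of A with h0 <= r(e) for all e in F.
 Mult 1 holds (F = {1}, h0 = r(1)); Mult k ==> k c <= |y|^2 (ak_R_card).  Take k maximal, (F, h0) a witness, e1 in F.
 (A) e', e'' <= e1 orthogonal ==> h0 r(e') r(e'') = 0: otherwise F' = (F - e1) + e' + e'' and h0' = h0 r(e') r(e'') witness Mult (k+1)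
     (e', e'' != 0 because r(0) = 0; they are different from the other members of F because these are orthogonal to e1).
 (B) sum_{e in P} h0 r(e1 e) = h0: the summands are orthogonal projections <= h0 by (A); p := h0 - sum is a projection <= h0 <= r(e1) with p r(e1 e) = 0: ak_R_cover.
 heavy: ak_H_heavy with q = Psi(e) <= r(e1 e) <= h(e1 e).
-/
import Claimed.Agent.R302.AK.Heavy

set_option autoImplicit false

namespace Claimed.Agent.R302

open scoped InnerProductSpace
open Filter Topology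

universe u
variable {H : Type u} [NormedAddCommGroup H] [InnerProductSpace ℂ H] [CompleteSpace H]

/-- multiplicity `k` is attained -/
def AkMult (S : StData H) (y : H →L[ℂ] H) (c : ℝ) (k : ℕ) : Prop :=
  ∃ (F : Finset (H →L[ℂ] H)) (h0 : H →L[ℂ] H), F.card = k ∧ (∀ e ∈ F, S.IsProjA e) ∧
    (∀ e ∈ F, ∀ e' ∈ F, e ≠ e' → e * e' = 0) ∧ S.IsProjA h0 ∧ h0 ≠ 0 ∧ ∀ e ∈ F, h0 ≤ akR S y c e

theorem akm_mul_le_left (S : StData H) {p q : H →L[ℂ] H} (hp : S.IsProjA p) (hq : S.IsProjA q) : p * q ≤ p := by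
  rw [ak_proj_le_iff S (ak_proj_mul S hp hq) hp, mul_assoc, (st_A_comm S hq.1 hp.1).eq, ← mul_assoc,
    hp.2.isIdempotentElem.eq]

theorem akm_mul_le_right (S : StData H) {p q : H →L[ℂ] H} (hp : S.IsProjA p) (hq : S.IsProjA q) : p * q ≤ q := by
  rw [ak_proj_le_iff S (ak_proj_mul S hp hq) hq, mul_assoc, hq.2.isIdempotentElem.eq]

omit [CompleteSpace H] in
theorem akm_orth_insert [DecidableEq (H →L[ℂ] H)] {G : Finset (H →L[ℂ] H)} {a : H →L[ℂ] H}
    (hG : ∀ e ∈ G, ∀ e' ∈ G, e ≠ e' → e * e' = 0) (h1 : ∀ f ∈ G, a * f = 0) (h2 : ∀ f ∈ G, f * a = 0) :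
    ∀ e ∈ insert a G, ∀ e' ∈ insert a G, e ≠ e' → e * e' = 0 := by
  intro e he e' he' hne
  rw [Finset.mem_insert] at he he'
  rcases he with rfl | he <;> rcases he' with rfl | he'
  · exact absurd rfl hne
  · exact h1 _ he'
  · exact h2 _ he
  · exact hG e he e' he' hne

theorem akm_one (S : StData H) {y : H →L[ℂ] H} (hy : y ∈ S.M) (c : ℝ) (hne : akR S y c 1 ≠ 0) : AkMult S y c 1 := by
  refine ⟨{1}, akR S y c 1, Finset.card_singleton _, ?_, ?_, ak_R_proj S hy c (ak_proj_one S), hne, ?_⟩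
  · intro e he
    rw [Finset.mem_singleton] at he
    subst he
    exact ak_proj_one S
  · intro e he e' he' h
    rw [Finset.mem_singleton] at he he'
    exact absurd (he.trans he'.symm) h
  · intro e he
    rw [Finset.mem_singleton] at he
    subst he
    exact le_rfl

theorem akm_bdd (S : StData H) {y : H →L[ℂ] H} (hy : y ∈ S.M) (c : ℝ) (hc : 0 < c) {k : ℕ} (h : AkMult S y c k) :
    (k : ℝ) * c ≤ ‖y‖ ^ 2 := by
  obtain ⟨F, h0, rfl, hF, horth, hh0, hne, hle⟩ := h
  exact ak_R_card S hy c hc F hF horth hh0 hne hle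

theorem akm_max (S : StData H) {y : H →L[ℂ] H} (hy : y ∈ S.M) (c : ℝ) (hc : 0 < c) (hne : akR S y c 1 ≠ 0) :
    ∃ k, AkMult S y c k ∧ ∀ k', AkMult S y c k' → k' ≤ k := by
  have hbdd : BddAbove {k | AkMult S y c k} := by
    refine ⟨⌈‖y‖ ^ 2 / c⌉₊, fun k hk => ?_⟩
    have h1 : (k : ℝ) ≤ ‖y‖ ^ 2 / c := by
      rw [le_div_iff₀ hc]
      exact akm_bdd S hy c hc hk
    exact_mod_cast h1.trans (Nat.le_ceil _)
  have hn : {k | AkMult S y c k}.Nonempty := ⟨1, akm_one S hy c hne⟩
  exact ⟨sSup {k | AkMult S y c k}, Nat.sSup_mem hn hbdd, fun k' hk' => le_csSup hbdd hk'⟩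

/-- splitting one member of the family raises the multiplicity -/
theorem akm_split (S : StData H) {y : H →L[ℂ] H} (hy : y ∈ S.M) (c : ℝ) (hc : 0 < c)
    {F : Finset (H →L[ℂ] H)} {h0 e1 e' e'' : H →L[ℂ] H} (hF : ∀ e ∈ F, S.IsProjA e)
    (horth : ∀ e ∈ F, ∀ e' ∈ F, e ≠ e' → e * e' = 0) (hh0 : S.IsProjA h0) (hle : ∀ e ∈ F, h0 ≤ akR S y c e)
    (he1 : e1 ∈ F) (he' : S.IsProjA e') (he'' : S.IsProjA e'') (h : e' * e'' = 0)
    (hne : h0 * akR S y c (e1 * e') * akR S y c (e1 * e'') ≠ 0) : AkMult S y c (F.card + 1) := by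
  classical
  have hp1 : S.IsProjA e1 := hF e1 he1
  have ha : S.IsProjA (e1 * e') := ak_proj_mul S hp1 he'
  have hb : S.IsProjA (e1 * e'') := ak_proj_mul S hp1 he''
  have hra : S.IsProjA (akR S y c (e1 * e')) := ak_R_proj S hy c ha
  have hrb : S.IsProjA (akR S y c (e1 * e'')) := ak_R_proj S hy c hb
  have hab : (e1 * e') * (e1 * e'') = 0 := by
    rw [(st_A_comm S he'.1 hp1.1).mul_mul_mul_comm, h, mul_zero]
  have hba : (e1 * e'') * (e1 * e') = 0 := by
    rw [(st_A_comm S hb.1 ha.1).eq, hab]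
  have ha0 : e1 * e' ≠ 0 := by
    intro h0'
    apply hne
    rw [h0', ak_R_zero S hy c hc, mul_zero, zero_mul]
  have hb0 : e1 * e'' ≠ 0 := by
    intro h0'
    apply hne
    rw [h0', ak_R_zero S hy c hc, mul_zero]
  have hfx : ∀ x, S.IsProjA x → ∀ f ∈ F.erase e1, (e1 * x) * f = 0 ∧ f * (e1 * x) = 0 := by
    intro x hx f hf
    rw [Finset.mem_erase] at hf
    have h1 : f * e1 = 0 := horth f hf.2 e1 he1 hf.1
    have h2 : f * (e1 * x) = 0 := by rw [← mul_assoc, h1, zero_mul]
    refine ⟨?_, h2⟩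
    rw [(st_A_comm S (ak_proj_mul S hp1 hx).1 (hF f hf.2).1).eq, h2]
  have hnot : ∀ x, S.IsProjA x → e1 * x ≠ 0 → e1 * x ∉ F.erase e1 := by
    intro x hx hx0 hmem
    apply hx0
    have := (hfx x hx _ hmem).1
    rwa [(ak_proj_mul S hp1 hx).2.isIdempotentElem.eq] at this
  have hne_ab : e1 * e' ≠ e1 * e'' := by
    intro heq
    apply ha0
    have := hab
    rwa [← heq, ha.2.isIdempotentElem.eq] at this
  refine ⟨insert (e1 * e') (insert (e1 * e'') (F.erase e1)),
    h0 * akR S y c (e1 * e') * akR S y c (e1 * e''), ?_, ?_, ?_, ?_, hne, ?_⟩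
  · rw [Finset.card_insert_of_notMem, Finset.card_insert_of_notMem (hnot e'' he'' hb0), Finset.card_erase_of_mem he1]
    · have : 0 < F.card := Finset.card_pos.2 ⟨e1, he1⟩
      omega
    · rw [Finset.mem_insert, not_or]
      exact ⟨hne_ab, hnot e' he' ha0⟩
  · intro e he
    rw [Finset.mem_insert, Finset.mem_insert] at he
    rcases he with rfl | rfl | he
    · exact ha
    · exact hb
    · exact hF e (Finset.mem_of_mem_erase he)
  · refine akm_orth_insert (akm_orth_insert ?_ ?_ ?_) ?_ ?_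
    · intro e he f hf
      exact horth e (Finset.mem_of_mem_erase he) f (Finset.mem_of_mem_erase hf)
    · exact fun f hf => (hfx e'' he'' f hf).1
    · exact fun f hf => (hfx e'' he'' f hf).2
    · intro f hf
      rw [Finset.mem_insert] at hf
      rcases hf with rfl | hf
      · exact hab
      · exact (hfx e' he' f hf).1
    · intro f hf
      rw [Finset.mem_insert] at hf
      rcases hf with rfl | hf
      · exact hba
      · exact (hfx e' he' f hf).2
  · exact ak_proj_mul S (ak_proj_mul S hh0 hra) hrb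
  · have h1 : h0 * akR S y c (e1 * e') * akR S y c (e1 * e'') ≤ h0 * akR S y c (e1 * e') :=
      akm_mul_le_left S (ak_proj_mul S hh0 hra) hrb
    intro e he
    rw [Finset.mem_insert, Finset.mem_insert] at he
    rcases he with rfl | rfl | he
    · exact h1.trans (akm_mul_le_right S hh0 hra)
    · exact akm_mul_le_right S (ak_proj_mul S hh0 hra) hrb
    · exact (h1.trans (akm_mul_le_left S hh0 hra)).trans (hle e (Finset.mem_of_mem_erase he))

theorem ak_psi (S : StData H) {y : H →L[ℂ] H} (hy : y ∈ S.M) (c : ℝ) (hc : 0 < c) (hne : akR S y c 1 ≠ 0) :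
    ∃ e1 h0 : H →L[ℂ] H, AkPsi S y e1 h0 c (fun e => h0 * akR S y c (e1 * e)) := by
  obtain ⟨k, ⟨F, h0, hk, hF, horth, hh0, hne0, hle⟩, hmax⟩ := akm_max S hy c hc hne
  have hk1 : 1 ≤ k := hmax 1 (akm_one S hy c hne)
  obtain ⟨e1, he1⟩ : F.Nonempty := Finset.card_pos.1 (by omega)
  have hp1 : S.IsProjA e1 := hF e1 he1
  have hr : ∀ e, S.IsProjA e → S.IsProjA (akR S y c (e1 * e)) := fun e he => ak_R_proj S hy c (ak_proj_mul S hp1 he)
  -- (A)
  have hA : ∀ e' e'', S.IsProjA e' → S.IsProjA e'' → e' * e'' = 0 →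
      h0 * akR S y c (e1 * e') * akR S y c (e1 * e'') = 0 := by
    intro e' e'' he' he'' h
    by_contra hcon
    have := hmax _ (akm_split S hy c hc hF horth hh0 hle he1 he' he'' h hcon)
    omega
  have hmul : ∀ e e', S.IsProjA e → S.IsProjA e' →
      (h0 * akR S y c (e1 * e)) * (h0 * akR S y c (e1 * e')) = h0 * akR S y c (e1 * e) * akR S y c (e1 * e') := by
    intro e e' he he'
    rw [(st_A_comm S (hr e he).1 hh0.1).mul_mul_mul_comm, hh0.2.isIdempotentElem.eq, mul_assoc]
  have hproj : ∀ e, S.IsProjA e → S.IsProjA (h0 * akR S y c (e1 * e)) := fun e he => ak_proj_mul S hh0 (hr e he)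
  refine ⟨e1, h0, hp1, hh0, hne0, hc, hproj, ?_, ?_, ?_, ?_⟩
  · -- mono
    intro e e' he he' h
    show (h0 * akR S y c (e1 * e)) * (h0 * akR S y c (e1 * e')) = h0 * akR S y c (e1 * e)
    rw [hmul e e' he he', mul_assoc]
    congr 1
    rw [← ak_proj_le_iff S (hr e he) (hr e' he')]
    refine ak_R_mono S hy c (ak_proj_mul S hp1 he) (ak_proj_mul S hp1 he') ?_
    rw [(st_A_comm S he.1 hp1.1).mul_mul_mul_comm, hp1.2.isIdempotentElem.eq, h]
  · -- orth
    intro e e' he he' h
    show (h0 * akR S y c (e1 * e)) * (h0 * akR S y c (e1 * e')) = 0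
    rw [hmul e e' he he', hA e e' he he' h]
  · -- sum
    intro P
    show ∑ e ∈ P.cells, h0 * akR S y c (e1 * e) = h0
    set s : H →L[ℂ] H := ∑ e ∈ P.cells, h0 * akR S y c (e1 * e) with hs
    have hsA : s ∈ S.A := S.A.sum_mem fun e he => (hproj e (P.proj e he)).1
    have hsp : IsStarProjection s := by
      refine vn_isStarProjection_sum _ _ (fun e he => (hproj e (P.proj e he)).2) ?_
      intro e he e' he' hee
      rw [hmul e e' (P.proj e he) (P.proj e' he'), hA e e' (P.proj e he) (P.proj e' he') (P.orth e he e' he' hee)]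
    have hsh : s * h0 = s := by
      rw [hs, Finset.sum_mul]
      refine Finset.sum_congr rfl fun e he => ?_
      rw [mul_assoc, (st_A_comm S (hr e (P.proj e he)).1 hh0.1).eq, ← mul_assoc, hh0.2.isIdempotentElem.eq]
    have hp : S.IsProjA (h0 - s) := ⟨S.A.sub_mem hh0.1 hsA, hsp.sub_of_mul_eq_left hh0.2 hsh⟩
    have hple : h0 - s ≤ akR S y c e1 := by
      refine le_trans ?_ (hle e1 he1)
      rw [ak_proj_le_iff S hp hh0, sub_mul, hsh, hh0.2.isIdempotentElem.eq]
    have hzero : ∀ e' ∈ P.cells, (h0 - s) * akR S y c (e1 * e') = 0 := by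
      intro e' he'
      rw [sub_mul, hs, Finset.sum_mul, Finset.sum_eq_single e']
      · rw [mul_assoc, (hr e' (P.proj e' he')).2.isIdempotentElem.eq, sub_self]
      · intro e he hee
        exact hA e e' (P.proj e he) (P.proj e' he') (P.orth e he e' he' hee)
      · intro h; exact absurd he' h
    have := ak_R_cover S hy c P hp1 hp hple hzero
    exact (sub_eq_zero.1 this).symm
  · -- heavy
    intro e he
    show c * (S.phi (h0 * akR S y c (e1 * e))).re ≤ (S.phi (akK S y (e1 * e) * (h0 * akR S y c (e1 * e)))).re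
    have h1 : h0 * akR S y c (e1 * e) ≤ akH S y c (e1 * e) :=
      (akm_mul_le_right S hh0 (hr e he)).trans (ak_R_le_H S hy c (ak_proj_mul S hp1 he))
    have h2 := ak_H_heavy S hy c (ak_proj_mul S hp1 he) (hproj e he) h1
    have h3 := (st_phi_nonneg S h2).1
    rw [sub_mul, st_phi_sub, smul_mul_assoc, one_mul, st_phi_smul, Complex.sub_re, Complex.re_ofReal_mul] at h3
    linarith

end Claimed.Agent.R302
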