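/-
R302 / AK / Normalizer : from an intertwiner to a groupoid normaliser (A4-A7 of Notes_helper100 Sec 4).   Owner: helper62.  SORRY-FREE.
Export: `ak_normalizer_core` (= `ak_normalizer` of AK/Main.lean without the hypothesis `OpSTHyp`).

Proof (shorter than A4-A7, no counting of families).  `k = E_A(z* z)`, `κ = ‖k‖/2`, `c = 1_(κ,∞)(k) ≠ 0`, replace `z` by `z c` (context `AkCtx`).
* `z d = 0`, `d ∈ A`  ==>  `c d = 0`  (`d* k d = 0`, `k ≥ κ c`).  So `Psi(a) := c a'` (`a z = z a'`) is well defined; it is a `*`-homomorphism `A → A c`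
  (`*`: `k Psi(a*) = E_A(z* a* z) = (k Psi(a))*`).
* `Theta(b) := z b z* ∈ A' ∩ M = A`, `Theta(b Psi(a)) = a Theta(b)`;  `z* z` commutes with `Psi(A)`.
* COVER: `b ≤ c`, `r` projections of `A`, `Theta(b) r ≤ t r`, `t < κ`  ==>  `p := b Psi(r) = 0`:
  `w = z p = r z b`, `w w* = Theta(b) r ≤ t`, so `w* w ≤ t p`, while `E_A(w* w) = k p ≥ κ p`.
* injective piece: `e ≤ c` nonzero with `‖Theta(e)‖ < inf + κ/2`.  For `e' ≤ e`, `r' = 1_[κ/2,∞)(Theta e')`, `r'' = 1_[κ/2,∞)(Theta(e - e'))`: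
  if `R = r' r'' ≠ 0` then `e' Psi(R) ≠ 0` has `Theta = Theta(e') R ≤ (‖Theta e‖ - κ/2) R`: contradiction.  So `r' r'' = 0`; by COVER `e' ≤ Psi(r')`, `e - e' ≤ Psi(r'')`,
  hence `e' = e Psi(r')`.
* `n = z e`: `n* n = e z* z e` commutes with all projections of `A`, so `n* n ∈ A`, `|n| ∈ A`; `n n* = Theta(e) ∈ A`; `b v = v Psi(b)` (`vn_polar_intertwine`).
-/
import Claimed.Agent.R302.ST.EA
import Claimed.Agent.R302.VN.Polar

set_option autoImplicit false

namespace Claimed.Agent.R302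

open scoped InnerProductSpace ComplexOrder
open Filter Topology

variable {H : Type*} [NormedAddCommGroup H] [InnerProductSpace ℂ H] [CompleteSpace H]

/-! ### order helpers -/

omit [CompleteSpace H] in
theorem ak_sc_mul (t : ℝ) (X : H →L[ℂ] H) : vn_sc t * X = t • X := by
  rw [vn_sc, smul_mul_assoc, one_mul, Complex.coe_smul]

/-- `t X ≤ s X`, `s < t`, `X ≥ 0` forces `X = 0`. -/
theorem ak_sc_cancel {X : H →L[ℂ] H} {s t : ℝ} (hX : 0 ≤ X) (h : vn_sc t * X ≤ vn_sc s * X)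
    (hst : s < t) : X = 0 := by
  rw [ak_sc_mul, ak_sc_mul, ← sub_nonneg, ← sub_smul] at h
  have h1 : 0 ≤ (t - s) • X := smul_nonneg (by linarith) hX
  have h2 : (s - t) • X = - ((t - s) • X) := by rw [← neg_smul]; congr 1; ring
  rw [h2, neg_nonneg] at h
  have h3 : (t - s) • X = 0 := le_antisymm h h1
  exact (smul_eq_zero.1 h3).resolve_left (by linarith [hst] : t - s ≠ 0)

theorem ak_mul_le_mul {X Y p : H →L[ℂ] H} (h : X ≤ Y) (hp : 0 ≤ p) (hX : Commute X p)
    (hY : Commute Y p) : X * p ≤ Y * p := by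
  rw [← sub_nonneg, ← sub_mul]
  exact Commute.mul_nonneg (sub_nonneg.2 h) hp (hY.sub_left hX)

/-- `x x* ≤ t` implies `x* x ≤ t`. -/
theorem ak_star_mul_le {x : H →L[ℂ] H} {t : ℝ} (ht : 0 ≤ t) (h : x * star x ≤ vn_sc t) :
    star x * x ≤ vn_sc t := by
  have h1 : ‖x * star x‖ ≤ t := vn_norm_le_of_le_sc (mul_star_self_nonneg x) ht h
  rw [CStarRing.norm_self_mul_star, ← CStarRing.norm_star_mul_self] at h1
  have h2 := IsSelfAdjoint.le_algebraMap_norm_self (a := star x * x) (IsSelfAdjoint.star_mul_self x)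
  rw [← vn_sc_eq_algebraMap] at h2
  exact h2.trans (vn_sc_mono h1)

/-! ### the context: an intertwiner cut to the set where `E_A(z* z) ≥ κ` -/

/-- `z ∈ M` with `a z = z Psi(a)`, `z = z c`, `E_A(z* z) ≥ κ c`, `Psi(a) ∈ A c`. -/
structure AkCtx (S : StData H) where
  z : H →L[ℂ] H
  c : H →L[ℂ] H
  κ : ℝ
  Psi : (H →L[ℂ] H) → (H →L[ℂ] H)
  hz : z ∈ S.M
  hc : S.IsProjA c
  hc0 : c ≠ 0
  hκ : 0 < κ
  hzc : z * c = z
  low : vn_sc κ * c ≤ S.EA (star z * z)
  Psi_mem : ∀ a ∈ S.A, Psi a ∈ S.A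
  Psi_c : ∀ a ∈ S.A, c * Psi a = Psi a
  Psi_int : ∀ a ∈ S.A, a * z = z * Psi a

namespace AkCtx

variable {S : StData H} (C : AkCtx S)

theorem sc_mem (t : ℝ) : (vn_sc t : H →L[ℂ] H) ∈ S.A := S.A.smul_mem (one_mem _) _

theorem qM : star C.z * C.z ∈ S.M := mul_mem (star_mem C.hz) C.hz

theorem c_mul_eq_zero_of_EA {d : H →L[ℂ] H} (h : S.EA (star C.z * C.z) * d = 0) : C.c * d = 0 := by
  have h1 := star_left_conjugate_le_conjugate C.low d
  rw [mul_assoc (star d) (S.EA _), h, mul_zero] at h1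
  have hcs : star C.c = C.c := C.hc.2.isSelfAdjoint.star_eq
  have e : star d * (vn_sc C.κ * C.c) * d = vn_sc C.κ * (star (C.c * d) * (C.c * d)) := by
    have e1 : star (C.c * d) * (C.c * d) = star d * (C.c * C.c) * d := by
      rw [star_mul, hcs]; simp only [mul_assoc]
    rw [e1, C.hc.2.isIdempotentElem.eq, ← mul_assoc (star d), ← (vn_sc_commute C.κ (star d)).eq]
    simp only [mul_assoc]
  rw [e] at h1
  have h2 : star (C.c * d) * (C.c * d) = 0 := by
    refine ak_sc_cancel (s := 0) (star_mul_self_nonneg _) ?_ C.hκ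
    simpa using h1
  exact (CStarRing.star_mul_self_eq_zero_iff _).1 h2

theorem c_mul_eq_zero {d : H →L[ℂ] H} (hd : d ∈ S.A) (h : C.z * d = 0) : C.c * d = 0 := by
  apply C.c_mul_eq_zero_of_EA
  rw [← st_EA_mul_right S hd C.qM, mul_assoc, h, mul_zero]
  exact st_EA_of_mem S (zero_mem _)

theorem Psi_eq {a b : H →L[ℂ] H} (ha : a ∈ S.A) (hb : b ∈ S.A) (hcb : C.c * b = b)
    (h : a * C.z = C.z * b) : C.Psi a = b := by
  have h1 : C.c * (C.Psi a - b) = 0 := by
    apply C.c_mul_eq_zero (sub_mem (C.Psi_mem a ha) hb)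
    rw [mul_sub, ← C.Psi_int a ha, h, sub_self]
  rw [mul_sub, C.Psi_c a ha, hcb] at h1
  exact sub_eq_zero.1 h1

theorem Psi_mul {a b : H →L[ℂ] H} (ha : a ∈ S.A) (hb : b ∈ S.A) :
    C.Psi (a * b) = C.Psi a * C.Psi b := by
  refine C.Psi_eq (mul_mem ha hb) (mul_mem (C.Psi_mem a ha) (C.Psi_mem b hb)) ?_ ?_
  · rw [← mul_assoc, C.Psi_c a ha]
  · rw [mul_assoc, C.Psi_int b hb, ← mul_assoc, C.Psi_int a ha, mul_assoc]

theorem Psi_add {a b : H →L[ℂ] H} (ha : a ∈ S.A) (hb : b ∈ S.A) :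
    C.Psi (a + b) = C.Psi a + C.Psi b := by
  refine C.Psi_eq (add_mem ha hb) (add_mem (C.Psi_mem a ha) (C.Psi_mem b hb)) ?_ ?_
  · rw [mul_add, C.Psi_c a ha, C.Psi_c b hb]
  · rw [add_mul, mul_add, C.Psi_int a ha, C.Psi_int b hb]

theorem Psi_one : C.Psi 1 = C.c :=
  C.Psi_eq (one_mem _) C.hc.1 C.hc.2.isIdempotentElem.eq (by rw [one_mul, C.hzc])

theorem Psi_zero : C.Psi 0 = 0 :=
  C.Psi_eq (zero_mem _) (zero_mem _) (mul_zero _) (by rw [zero_mul, mul_zero])

theorem Psi_one_sub {r : H →L[ℂ] H} (hr : r ∈ S.A) : C.Psi (1 - r) = C.c - C.Psi r := by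
  have h := C.Psi_add (sub_mem (one_mem _) hr) hr
  rw [sub_add_cancel, C.Psi_one] at h
  rw [h]; abel

theorem Psi_star {a : H →L[ℂ] H} (ha : a ∈ S.A) : C.Psi (star a) = star (C.Psi a) := by
  have hsa : star a ∈ S.A := star_mem ha
  have hk := st_EA_mem S C.qM
  have hks : star (S.EA (star C.z * C.z)) = S.EA (star C.z * C.z) := by
    rw [← st_EA_star S C.qM]; simp
  have h1 : S.EA (star C.z * C.z) * C.Psi (star a) = S.EA (star C.z * C.z) * star (C.Psi a) := by
    rw [← st_EA_mul_right S (C.Psi_mem _ hsa) C.qM, mul_assoc, ← C.Psi_int _ hsa]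
    have e : star C.z * (star a * C.z) = star (star C.z * C.z * C.Psi a) := by
      rw [mul_assoc, ← C.Psi_int a ha]; simp [mul_assoc]
    rw [e, st_EA_star S (mul_mem C.qM (st_A_le_M S (C.Psi_mem a ha))),
      st_EA_mul_right S (C.Psi_mem a ha) C.qM, star_mul, hks,
      (st_A_comm S (star_mem (C.Psi_mem a ha)) hk).eq]
  have h2 : C.c * (C.Psi (star a) - star (C.Psi a)) = 0 := by
    apply C.c_mul_eq_zero_of_EA
    rw [mul_sub, h1, sub_self]
  have h3 : C.c * star (C.Psi a) = star (C.Psi a) := by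
    have := congrArg star (C.Psi_c a ha)
    rw [star_mul, C.hc.2.isSelfAdjoint.star_eq] at this
    rw [(st_A_comm S C.hc.1 (star_mem (C.Psi_mem a ha))).eq, this]
  rw [mul_sub, C.Psi_c _ hsa, h3] at h2
  exact sub_eq_zero.1 h2

theorem Psi_proj {r : H →L[ℂ] H} (hr : S.IsProjA r) : S.IsProjA (C.Psi r) := by
  refine ⟨C.Psi_mem r hr.1, ?_, ?_⟩
  · show C.Psi r * C.Psi r = C.Psi r
    rw [← C.Psi_mul hr.1 hr.1, hr.2.isIdempotentElem.eq]
  · show star (C.Psi r) = C.Psi r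
    rw [← C.Psi_star hr.1, hr.2.isSelfAdjoint.star_eq]

/-- `z* a = Psi(a) z*` -/
theorem star_int {a : H →L[ℂ] H} (ha : a ∈ S.A) : star C.z * a = C.Psi a * star C.z := by
  have h := congrArg star (C.Psi_int (star a) (star_mem ha))
  rw [star_mul, star_mul, star_star, C.Psi_star ha, star_star] at h
  exact h

/-- `Theta(b) = z b z* ∈ A`. -/
theorem Theta_mem {b : H →L[ℂ] H} (hb : b ∈ S.A) : C.z * b * star C.z ∈ S.A := by
  refine st_mem_A_of_comm S (mul_mem (mul_mem C.hz (st_A_le_M S hb)) (star_mem C.hz)) fun a ha => ?_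
  show C.z * b * star C.z * a = a * (C.z * b * star C.z)
  rw [mul_assoc (C.z * b), C.star_int ha, ← mul_assoc a, ← mul_assoc a, C.Psi_int a ha,
    mul_assoc C.z b, mul_assoc C.z (C.Psi a), ← mul_assoc b, (st_A_comm S hb (C.Psi_mem a ha)).eq]
  simp only [mul_assoc]

theorem Theta_Psi {a b : H →L[ℂ] H} (ha : a ∈ S.A) (hb : b ∈ S.A) :
    C.z * (b * C.Psi a) * star C.z = a * (C.z * b * star C.z) := by
  rw [(st_A_comm S hb (C.Psi_mem a ha)).eq, ← mul_assoc C.z, ← C.Psi_int a ha]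
  simp only [mul_assoc]

/-- `z* z` commutes with `Psi(A)`. -/
theorem q_comm {a : H →L[ℂ] H} (ha : a ∈ S.A) : Commute (star C.z * C.z) (C.Psi a) := by
  show star C.z * C.z * C.Psi a = C.Psi a * (star C.z * C.z)
  rw [mul_assoc, ← C.Psi_int a ha, ← mul_assoc, ← mul_assoc, C.star_int ha]

theorem sc_mul_proj_le {t : ℝ} (ht : 0 ≤ t) {r : H →L[ℂ] H} (hr : IsStarProjection r) :
    vn_sc t * r ≤ vn_sc t := by
  have h := ak_mul_le_mul (vn_proj_le_one hr) (vn_sc_nonneg ht) (vn_sc_commute t r).symm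
    (vn_sc_commute t 1).symm
  rwa [one_mul, ← (vn_sc_commute t r).eq] at h

/-- COVER lemma: where `Theta(b)` is smaller than `κ` there is nothing of `b`. -/
theorem cover {b r : H →L[ℂ] H} {t : ℝ} (hb : S.IsProjA b) (hcb : C.c * b = b) (hr : S.IsProjA r)
    (ht0 : 0 ≤ t) (ht : t < C.κ) (h : C.z * b * star C.z * r ≤ vn_sc t * r) : b * C.Psi r = 0 := by
  have hPr := C.Psi_proj hr
  have hpP : S.IsProjA (b * C.Psi r) :=
    ⟨mul_mem hb.1 hPr.1, hb.2.mul hPr.2 (st_A_comm S hb.1 hPr.1)⟩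
  have hcp : C.c * (b * C.Psi r) = b * C.Psi r := by rw [← mul_assoc, hcb]
  generalize hp : b * C.Psi r = p at hpP hcp ⊢
  have hps : star p = p := hpP.2.isSelfAdjoint.star_eq
  have hpp : p * p = p := hpP.2.isIdempotentElem.eq
  have hw1 : C.z * p = r * C.z * b := by
    rw [← hp, (st_A_comm S hb.1 hPr.1).eq, ← mul_assoc, ← C.Psi_int r hr.1]
  have hw2 : (C.z * p) * star (C.z * p) = C.z * b * star C.z * r := by
    rw [hw1, star_mul, star_mul, hb.2.isSelfAdjoint.star_eq, hr.2.isSelfAdjoint.star_eq]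
    have e : r * C.z * b * (b * (star C.z * r)) = r * (C.z * (b * b) * star C.z) * r := by
      simp only [mul_assoc]
    rw [e, hb.2.isIdempotentElem.eq, (st_A_comm S hr.1 (C.Theta_mem hb.1)).eq, mul_assoc,
      hr.2.isIdempotentElem.eq]
  have hw3 : (C.z * p) * star (C.z * p) ≤ vn_sc t := by
    rw [hw2]
    exact h.trans (sc_mul_proj_le ht0 hr.2)
  have hw4 : star (C.z * p) * (C.z * p) ≤ vn_sc t := ak_star_mul_le ht0 hw3
  have hwe : star (C.z * p) * (C.z * p) = p * (star C.z * C.z) * p := by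
    rw [star_mul, hps]; simp only [mul_assoc]
  have hw5 : star (C.z * p) * (C.z * p) ≤ vn_sc t * p := by
    have h5 := hpP.2.isSelfAdjoint.conjugate_le_conjugate hw4
    have e1 : p * (star (C.z * p) * (C.z * p)) * p = star (C.z * p) * (C.z * p) := by
      rw [hwe]
      calc p * (p * (star C.z * C.z) * p) * p = (p * p) * (star C.z * C.z) * (p * p) := by
            simp only [mul_assoc]
        _ = p * (star C.z * C.z) * p := by rw [hpp]
    have e2 : p * vn_sc t * p = vn_sc t * p := by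
      rw [← (vn_sc_commute t p).eq, mul_assoc, hpp]
    rwa [e1, e2] at h5
  have hpM := st_A_le_M S hpP.1
  have hw6 : S.EA (star (C.z * p) * (C.z * p)) ≤ vn_sc t * p := by
    have h6 := st_EA_mono S (mul_mem (star_mem (mul_mem C.hz hpM)) (mul_mem C.hz hpM))
      (st_A_le_M S (mul_mem (sc_mem t) hpP.1)) hw5
    rwa [st_EA_of_mem S (mul_mem (sc_mem t) hpP.1)] at h6
  have hw7 : vn_sc C.κ * p ≤ S.EA (star (C.z * p) * (C.z * p)) := by
    rw [hwe, st_EA_mul_right S hpP.1 (mul_mem hpM C.qM), st_EA_mul_left S hpP.1 C.qM]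
    have h7 := hpP.2.isSelfAdjoint.conjugate_le_conjugate C.low
    have e3 : p * (vn_sc C.κ * C.c) * p = vn_sc C.κ * p := by
      rw [← mul_assoc, ← (vn_sc_commute C.κ p).eq, mul_assoc, mul_assoc, hcp, hpp]
    rwa [e3] at h7
  exact ak_sc_cancel hpP.2.nonneg (hw7.trans hw6) ht

theorem specGe_projA {t : H →L[ℂ] H} (ht : t ∈ S.A) (l : ℝ) : S.IsProjA (vn_specGe t l) :=
  ⟨vn_specGe_mem (vn_masaVN S.M S.A S.masa) ht l, vn_specGe_isStarProjection t l⟩

theorem Theta_nonneg {b : H →L[ℂ] H} (hb : 0 ≤ b) : 0 ≤ C.z * b * star C.z :=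
  star_right_conjugate_nonneg hb C.z

/-- `b ≤ Psi(1_[κ/2,∞)(Theta b))`. -/
theorem cover' {b : H →L[ℂ] H} (hb : S.IsProjA b) (hcb : C.c * b = b) :
    b * C.Psi (vn_specGe (C.z * b * star C.z) (C.κ / 2)) = b := by
  have htA := C.Theta_mem hb.1
  have hts : IsSelfAdjoint (C.z * b * star C.z) := (C.Theta_nonneg hb.2.nonneg).isSelfAdjoint
  have hr := specGe_projA htA (C.κ / 2)
  have h1 := vn_specGe_compl_nonpos hts (C.κ / 2)
  rw [sub_mul, sub_nonpos] at h1
  have h3 := C.cover hb hcb ⟨sub_mem (one_mem _) hr.1, hr.2.one_sub⟩ (by linarith [C.hκ])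
    (by linarith [C.hκ]) h1
  rw [C.Psi_one_sub hr.1, mul_sub, (st_A_comm S hb.1 C.hc.1).eq, hcb, sub_eq_zero] at h3
  exact h3.symm

/-- `(κ/2) r ≤ Theta(b) r` for `r = 1_[κ/2,∞)(Theta b)`. -/
theorem heavy {b : H →L[ℂ] H} (hb : S.IsProjA b) :
    vn_sc (C.κ / 2) * vn_specGe (C.z * b * star C.z) (C.κ / 2)
      ≤ C.z * b * star C.z * vn_specGe (C.z * b * star C.z) (C.κ / 2) := by
  have hts : IsSelfAdjoint (C.z * b * star C.z) := (C.Theta_nonneg hb.2.nonneg).isSelfAdjoint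
  have h1 := vn_specGe_nonneg hts (C.κ / 2)
  rwa [sub_mul, sub_nonneg] at h1

/-- The injective piece: a nonzero projection `e ≤ c` of `A` with `A e = Psi(A) e`. -/
theorem exists_good : ∃ e, S.IsProjA e ∧ C.c * e = e ∧ e ≠ 0 ∧
    ∀ e', S.IsProjA e' → e * e' = e' → ∃ r ∈ S.A, e' = e * C.Psi r := by
  set T : Set ℝ := {x | ∃ e, S.IsProjA e ∧ C.c * e = e ∧ e ≠ 0 ∧ x = ‖C.z * e * star C.z‖} with hT
  have hne : T.Nonempty := ⟨_, C.c, C.hc, C.hc.2.isIdempotentElem.eq, C.hc0, rfl⟩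
  have hbdd : BddBelow T := ⟨0, by rintro x ⟨e, -, -, -, rfl⟩; exact norm_nonneg _⟩
  have hl : 0 < C.κ / 2 := by linarith [C.hκ]
  obtain ⟨x, ⟨e, he, hce, he0, rfl⟩, hx⟩ := Real.lt_sInf_add_pos hne hl
  refine ⟨e, he, hce, he0, fun e' he' hee' => ?_⟩
  have hee'' : e' * e = e' := by rw [(st_A_comm S he'.1 he.1).eq, hee']
  have he2 : S.IsProjA (e - e') := by
    refine ⟨sub_mem he.1 he'.1, ?_, ?_⟩
    · show (e - e') * (e - e') = e - e'
      rw [sub_mul, mul_sub, mul_sub, he.2.isIdempotentElem.eq, hee', hee'',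
        he'.2.isIdempotentElem.eq]
      abel
    · show star (e - e') = e - e'
      rw [star_sub, he.2.isSelfAdjoint.star_eq, he'.2.isSelfAdjoint.star_eq]
  have hce' : C.c * e' = e' := by rw [← hee', ← mul_assoc, hce]
  have hce2 : C.c * (e - e') = e - e' := by rw [mul_sub, hce, hce']
  have h1 := C.cover' he' hce'
  have h2 := C.cover' he2 hce2
  have g1 := C.heavy he'
  have g2 := C.heavy he2
  have ht1A := C.Theta_mem he'.1
  have ht2A := C.Theta_mem he2.1
  have hr1 := specGe_projA ht1A (C.κ / 2)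
  have hr2 := specGe_projA ht2A (C.κ / 2)
  have hsum : C.z * e' * star C.z + C.z * (e - e') * star C.z = C.z * e * star C.z := by
    rw [← add_mul, ← mul_add, add_sub_cancel]
  have ht1n := C.Theta_nonneg he'.2.nonneg
  have hTP : ∀ a ∈ S.A, C.z * (e' * C.Psi a) * star C.z = a * (C.z * e' * star C.z) :=
    fun a ha => C.Theta_Psi ha he'.1
  have htn : C.z * e * star C.z ≤ vn_sc ‖C.z * e * star C.z‖ :=
    vn_le_sc_norm (C.Theta_nonneg he.2.nonneg).isSelfAdjoint
  have htA := C.Theta_mem he.1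
  generalize C.z * e' * star C.z = t1 at *
  generalize C.z * (e - e') * star C.z = t2 at *
  generalize vn_specGe t1 (C.κ / 2) = r1 at *
  generalize vn_specGe t2 (C.κ / 2) = r2 at *
  have key : r1 * r2 = 0 := by
    by_contra hR0
    have hR : S.IsProjA (r1 * r2) :=
      ⟨mul_mem hr1.1 hr2.1, hr1.2.mul hr2.2 (st_A_comm S hr1.1 hr2.1)⟩
    have hPR := C.Psi_proj hR
    have he3 : S.IsProjA (e' * C.Psi (r1 * r2)) :=
      ⟨mul_mem he'.1 hPR.1, he'.2.mul hPR.2 (st_A_comm S he'.1 hPR.1)⟩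
    have hce3 : C.c * (e' * C.Psi (r1 * r2)) = e' * C.Psi (r1 * r2) := by rw [← mul_assoc, hce']
    have hΘ3 : C.z * (e' * C.Psi (r1 * r2)) * star C.z = t1 * (r1 * r2) := by
      rw [hTP _ hR.1, (st_A_comm S hR.1 ht1A).eq]
    have i1 : vn_sc (C.κ / 2) * (r1 * r2) ≤ t1 * (r1 * r2) := by
      have h := ak_mul_le_mul g1 hr2.2.nonneg
        (st_A_comm S (mul_mem (sc_mem _) hr1.1) hr2.1) (st_A_comm S (mul_mem ht1A hr1.1) hr2.1)
      simpa only [mul_assoc] using h
    have i2 : vn_sc (C.κ / 2) * (r1 * r2) ≤ t2 * (r1 * r2) := by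
      have h := ak_mul_le_mul g2 hr1.2.nonneg
        (st_A_comm S (mul_mem (sc_mem _) hr2.1) hr1.1) (st_A_comm S (mul_mem ht2A hr2.1) hr1.1)
      rw [mul_assoc, mul_assoc, (st_A_comm S hr2.1 hr1.1).eq] at h
      exact h
    have i3 : (t1 + t2) * (r1 * r2) ≤ vn_sc ‖C.z * e * star C.z‖ * (r1 * r2) := by
      rw [hsum]
      exact ak_mul_le_mul htn hR.2.nonneg (st_A_comm S htA hR.1) (st_A_comm S (sc_mem _) hR.1)
    have i4 : t1 * (r1 * r2) ≤ vn_sc (‖C.z * e * star C.z‖ - C.κ / 2) * (r1 * r2) := by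
      have e1 : vn_sc (‖C.z * e * star C.z‖ - C.κ / 2) * (r1 * r2)
          = vn_sc ‖C.z * e * star C.z‖ * (r1 * r2) - vn_sc (C.κ / 2) * (r1 * r2) := by
        rw [ak_sc_mul, ak_sc_mul, ak_sc_mul, sub_smul]
      have e2 : t1 * (r1 * r2) = (t1 + t2) * (r1 * r2) - t2 * (r1 * r2) := by
        rw [add_mul]; abel
      rw [e1, e2]
      exact sub_le_sub i3 i2
    have i5 : C.κ / 2 ≤ ‖C.z * e * star C.z‖ - C.κ / 2 := by
      by_contra hlt
      push Not at hlt
      exact hR0 (ak_sc_cancel hR.2.nonneg (i1.trans i4) hlt)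
    have i6 : ‖C.z * (e' * C.Psi (r1 * r2)) * star C.z‖ ≤ ‖C.z * e * star C.z‖ - C.κ / 2 := by
      rw [hΘ3]
      exact vn_norm_le_of_le_sc (Commute.mul_nonneg ht1n hR.2.nonneg (st_A_comm S ht1A hR.1))
        (by linarith) (i4.trans (sc_mul_proj_le (by linarith) hR.2))
    have i7 : e' * C.Psi (r1 * r2) ≠ 0 := by
      intro h0
      rw [h0, mul_zero, zero_mul] at hΘ3
      have h : vn_sc (C.κ / 2) * (r1 * r2) ≤ vn_sc 0 * (r1 * r2) := by
        rw [← hΘ3] at i1
        simpa using i1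
      exact hR0 (ak_sc_cancel hR.2.nonneg h hl)
    have i8 : sInf T ≤ ‖C.z * (e' * C.Psi (r1 * r2)) * star C.z‖ :=
      csInf_le hbdd ⟨_, he3, hce3, i7, rfl⟩
    linarith
  refine ⟨r1, hr1.1, ?_⟩
  calc e' = e' * C.Psi r1 + (e - e') * (C.Psi r2 * C.Psi r1) := by
        rw [← C.Psi_mul hr2.1 hr1.1, (st_A_comm S hr2.1 hr1.1).eq, key, C.Psi_zero, mul_zero,
          add_zero, h1]
    _ = e' * C.Psi r1 + (e - e') * C.Psi r1 := by rw [← mul_assoc, h2]
    _ = e * C.Psi r1 := by rw [← add_mul, add_sub_cancel]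

/-- On the injective piece `n = z e` satisfies `n* n ∈ A`, and its polar part is a groupoid normaliser. -/
theorem exists_normalizer : ∃ e, S.IsProjA e ∧ C.c * e = e ∧ C.z * e ≠ 0 ∧
    ∃ v, S.IsGN v ∧ ∃ a ∈ S.A, C.z * e = v * a := by
  obtain ⟨e, he, hce, he0, hgood⟩ := C.exists_good
  have hes := he.2.isSelfAdjoint.star_eq
  have hee := he.2.isIdempotentElem.eq
  have heM := st_A_le_M S he.1
  have hnM : C.z * e ∈ S.M := mul_mem C.hz heM
  have hn0 : C.z * e ≠ 0 := by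
    intro h0
    have h := C.c_mul_eq_zero he.1 h0
    rw [hce] at h
    exact he0 h
  have hnn : star (C.z * e) * (C.z * e) = e * (star C.z * C.z) * e := by
    rw [star_mul, hes]; simp only [mul_assoc]
  have hnnA : star (C.z * e) * (C.z * e) ∈ S.A := by
    refine st_mem_A_of_comm_proj S (mul_mem (star_mem hnM) hnM) fun f hf => ?_
    have hef : S.IsProjA (e * f) := ⟨mul_mem he.1 hf.1, he.2.mul hf.2 (st_A_comm S he.1 hf.1)⟩
    obtain ⟨r, hr, hre⟩ := hgood (e * f) hef (by rw [← mul_assoc, hee])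
    show star (C.z * e) * (C.z * e) * f = f * (star (C.z * e) * (C.z * e))
    rw [hnn]
    calc e * (star C.z * C.z) * e * f = e * (star C.z * C.z) * (e * f) := by simp only [mul_assoc]
      _ = e * (star C.z * C.z) * (C.Psi r * e) := by
          rw [hre, (st_A_comm S he.1 (C.Psi_mem r hr)).eq]
      _ = e * ((star C.z * C.z) * C.Psi r) * e := by simp only [mul_assoc]
      _ = e * (C.Psi r * (star C.z * C.z)) * e := by rw [(C.q_comm hr).eq]
      _ = (e * C.Psi r) * (star C.z * C.z) * e := by simp only [mul_assoc]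
      _ = (f * e) * (star C.z * C.z) * e := by rw [← hre, (st_A_comm S he.1 hf.1).eq]
      _ = f * (e * (star C.z * C.z) * e) := by simp only [mul_assoc]
  have habsA : CFC.abs (C.z * e) ∈ S.A := st_sqrt_mem_A S hnnA
  have hint : ∀ b ∈ S.A, b * (C.z * e) = (C.z * e) * C.Psi b := fun b hb => by
    rw [← mul_assoc, C.Psi_int b hb, mul_assoc, mul_assoc, (st_A_comm S he.1 (C.Psi_mem b hb)).eq]
  have hnsA : (C.z * e) * star (C.z * e) ∈ S.A := by
    have e1 : (C.z * e) * star (C.z * e) = C.z * e * star C.z := by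
      rw [star_mul, hes, mul_assoc C.z, ← mul_assoc e, hee, mul_assoc]
    rw [e1]
    exact C.Theta_mem he.1
  generalize hn : C.z * e = n at *
  have hv_int : ∀ b ∈ S.A, b * vn_polar n = vn_polar n * C.Psi b := fun b hb =>
    vn_polar_intertwine (hint b hb) (by rw [hint _ (star_mem hb), C.Psi_star hb])
  have hv_int' : ∀ b ∈ S.A, star (vn_polar n) * b = C.Psi b * star (vn_polar n) := fun b hb => by
    have h := congrArg star (hv_int (star b) (star_mem hb))
    rw [star_mul, star_mul, star_star, C.Psi_star hb, star_star] at h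
    exact h
  have hvM : vn_polar n ∈ S.M := vn_polar_mem S.M hnM
  have hsrc : star (vn_polar n) * vn_polar n ∈ S.A := by
    rw [vn_star_polar_mul_polar, ← vn_rangeProj_abs]
    exact vn_rangeProj_mem (vn_masaVN S.M S.A S.masa) habsA
  have hrng : vn_polar n * star (vn_polar n) ∈ S.A := by
    rw [vn_polar_mul_star_polar, ← vn_rangeProj_mul_star_self]
    exact vn_rangeProj_mem (vn_masaVN S.M S.A S.masa) hnsA
  refine ⟨e, he, hce, hn ▸ hn0, vn_polar n, ⟨hvM, (vn_polar_isPartialIsometry n).mul_star_mul, hsrc,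
    hrng, ?_, ?_⟩, CFC.abs n, habsA, hn.trans (vn_polar_mul_abs n).symm⟩
  · intro a ha
    refine st_mem_A_of_comm S (mul_mem (mul_mem hvM (st_A_le_M S ha)) (star_mem hvM))
      fun b hb => ?_
    show vn_polar n * a * star (vn_polar n) * b = b * (vn_polar n * a * star (vn_polar n))
    calc vn_polar n * a * star (vn_polar n) * b
        = vn_polar n * a * (star (vn_polar n) * b) := by simp only [mul_assoc]
      _ = vn_polar n * (a * C.Psi b) * star (vn_polar n) := by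
          rw [hv_int' b hb]; simp only [mul_assoc]
      _ = (vn_polar n * C.Psi b) * a * star (vn_polar n) := by
          rw [(st_A_comm S ha (C.Psi_mem b hb)).eq]; simp only [mul_assoc]
      _ = b * (vn_polar n * a * star (vn_polar n)) := by
          rw [← hv_int b hb]; simp only [mul_assoc]
  · intro a ha
    rw [mul_assoc, hv_int a ha, ← mul_assoc]
    exact mul_mem hsrc (C.Psi_mem a ha)

end AkCtx

/-- **A4-A7**: a nonzero intertwiner `z` (`A z ⊆ z A`) has a nonzero piece `z e = v a` with `v` a groupoid normaliser. -/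
theorem ak_normalizer_core (S : StData H) (z : H →L[ℂ] H) (hz : z ∈ S.M) (hz0 : z ≠ 0)
    (hint : ∀ a ∈ S.A, ∃ a' ∈ S.A, a * z = z * a') :
    ∃ e ∈ S.A, IsStarProjection e ∧ z * e ≠ 0 ∧ ∃ v, S.IsGN v ∧ ∃ a ∈ S.A, z * e = v * a := by
  classical
  have hqM : star z * z ∈ S.M := mul_mem (star_mem hz) hz
  have hkA : S.EA (star z * z) ∈ S.A := st_EA_mem S hqM
  have hk0 : 0 ≤ S.EA (star z * z) := st_EA_nonneg S hqM (star_mul_self_nonneg z)
  have hkne : S.EA (star z * z) ≠ 0 := fun h => hz0 (st_EA_faithful S hz h)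
  have hκ : 0 < ‖S.EA (star z * z)‖ / 2 := by
    have := norm_pos_iff.2 hkne
    linarith
  have hc : S.IsProjA (vn_specGt (S.EA (star z * z)) (‖S.EA (star z * z)‖ / 2)) :=
    ⟨vn_specGt_mem (vn_masaVN S.M S.A S.masa) hkA _, vn_specGt_isStarProjection _ _⟩
  have hc0 : vn_specGt (S.EA (star z * z)) (‖S.EA (star z * z)‖ / 2) ≠ 0 := by
    intro h0
    have h := vn_norm_mul_specGt_compl_le hk0 hκ.le
    rw [h0, sub_zero, mul_one] at h
    linarith
  have hlow := vn_specGt_nonneg hk0.isSelfAdjoint (‖S.EA (star z * z)‖ / 2)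
  rw [sub_mul, sub_nonneg] at hlow
  generalize ‖S.EA (star z * z)‖ / 2 = κ at *
  generalize vn_specGt (S.EA (star z * z)) κ = c at *
  have hcc := hc.2.isIdempotentElem.eq
  have hcs := hc.2.isSelfAdjoint.star_eq
  have hcM := st_A_le_M S hc.1
  let Psi : (H →L[ℂ] H) → (H →L[ℂ] H) := fun a => if h : a ∈ S.A then c * (hint a h).choose else 0
  have hPsi : ∀ a (h : a ∈ S.A), Psi a = c * (hint a h).choose := fun a h => dif_pos h
  let C : AkCtx S :=
    { z := z * c
      c := c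
      κ := κ
      Psi := Psi
      hz := mul_mem hz hcM
      hc := hc
      hc0 := hc0
      hκ := hκ
      hzc := by rw [mul_assoc, hcc]
      low := by
        have e1 : star (z * c) * (z * c) = c * (star z * z) * c := by
          rw [star_mul, hcs]; simp only [mul_assoc]
        rw [e1, st_EA_mul_right S hc.1 (mul_mem hcM hqM), st_EA_mul_left S hc.1 hqM,
          (st_A_comm S hc.1 hkA).eq, mul_assoc, hcc]
        exact hlow
      Psi_mem := fun a ha => by
        rw [hPsi a ha]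
        exact mul_mem hc.1 (hint a ha).choose_spec.1
      Psi_c := fun a ha => by rw [hPsi a ha, ← mul_assoc, hcc]
      Psi_int := fun a ha => by
        rw [hPsi a ha]
        obtain ⟨ha', h⟩ := (hint a ha).choose_spec
        generalize (hint a ha).choose = a' at *
        rw [← mul_assoc, h, mul_assoc z c, ← mul_assoc c, hcc, mul_assoc,
          (st_A_comm S ha' hc.1).eq] }
  obtain ⟨e, he, hce, hne, v, hv, a, ha, h⟩ := C.exists_normalizer
  have e1 : C.z * e = z * e := by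
    show z * c * e = z * e
    rw [mul_assoc]
    congr 1
  rw [e1] at hne h
  exact ⟨e, he.1, he.2, hne, v, hv, a, ha, h⟩

end Claimed.Agent.R302
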