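/-
R302 / AK / Main : atomless kernels (replaces Q Section 3), point-free.   Owner: helper100.
Blueprint: Notes_helper100.lean Section 4 (A1-A7), in the streamlined form:
 K(e) := E_A(y* e y), h(e) := 1_[c,oo)(K(e)), r(e) := inf over partitions P of e of sup_{e' in P} h(e')   ("there is an atom of mass >= c in e").
 B1  r monotone, r(e+e') = r(e) sup r(e'), r(e) <= h(e), sum_{e in P} r(e) <= |y|^2/c, and r(1) != 0 if (AK) fails for y (c = eps/2).
 B2  maximal multiplicity: (P, h0 != 0, e_1..e_k in P distinct, h0 <= r(e_i)) with k maximal  ==>  Psi(e') := h0 r(e') (e' <= e_1) is additive,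
     orthogonal on orthogonal projections, Psi(e_1) = h0, and K(e') >= c Psi(e').
 B3  twisted pinching z_P := sum_{e' in P} e' y Psi(e') (P partition of e_1): |z_P| <= |y|, z_P Om = (decreasing projections) y Om, limit z in M,
     e' z = z Psi(e'), <z e Om, y Om> = |z e Om|^2 for projections e of A, |z Om|^2 >= c phi(h0) > 0.
 A4-A7 from an intertwiner to a normalizer (ak_normalizer).
-/
import Claimed.Agent.R302.TR.Hyp
import Claimed.Agent.R302.AK.Mult
import Claimed.Agent.R302.AK.Twist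
import Claimed.Agent.R302.AK.Extend
import Claimed.Agent.R302.AK.Normalizer

set_option autoImplicit false

namespace Claimed.Agent.R302

open scoped InnerProductSpace ComplexOrder
open Filter Topology

universe u
variable {H : Type u} [NormedAddCommGroup H] [InnerProductSpace ℂ H] [CompleteSpace H]

/-- the conclusion of (AK) for one `y` and one `ε`. -/
def OpAKat (S : StData H) (y : H →L[ℂ] H) (ε : ℝ) : Prop :=
  ∃ P : StPart S, ∃ G ∈ S.A, 0 ≤ G ∧ ‖G‖ ≤ ‖y‖ ^ 2 ∧
    (∀ e ∈ P.cells, S.EA (star y * e * y) ≤ G) ∧ (S.phi G).re < ε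

/-- B1-B3: if (AK) fails for `y ∈ M` there is a nonzero intertwiner `z`, "a piece of `y`". -/
theorem ak_intertwiner (S : StData H) (hST : OpSTHyp S) (y : H →L[ℂ] H) (hy : y ∈ S.M) (ε : ℝ) (hε : 0 < ε)
    (hnot : ¬ OpAKat S y ε) :
    ∃ z ∈ S.M, z ≠ 0 ∧ (∀ a ∈ S.A, ∃ a' ∈ S.A, a * z = z * a') ∧
      ∀ e ∈ S.A, IsStarProjection e → ⟪(z * e) S.Om, y S.Om⟫_ℂ = (‖(z * e) S.Om‖ ^ 2 : ℝ) := by
  obtain ⟨c, hc, hne⟩ := ak_R_one_ne S hy ε hε hnot
  obtain ⟨e1, h0, hΨ⟩ := ak_psi S hy c hc hne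
  obtain ⟨z, hzM, hz0, hint, hpiece⟩ := ak_twist S hy hΨ
  exact ⟨z, hzM, hz0, ak_extend S hzM _ hΨ.proj hΨ.orth hint, hpiece⟩

/-- A4-A7: a nonzero intertwiner has a nonzero piece `z e = v a`, `v` a groupoid normalizer. -/
theorem ak_normalizer (S : StData H) (hST : OpSTHyp S) (z : H →L[ℂ] H) (hz : z ∈ S.M) (hz0 : z ≠ 0)
    (hint : ∀ a ∈ S.A, ∃ a' ∈ S.A, a * z = z * a') :
    ∃ e ∈ S.A, IsStarProjection e ∧ z * e ≠ 0 ∧ ∃ v, S.IsGN v ∧ ∃ a ∈ S.A, z * e = v * a :=
  ak_normalizer_core S z hz hz0 hint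

/-- (AK). -/
theorem ak_main (S : StData H) (hST : OpSTHyp S) : OpAK S := by
  intro y hy ε hε
  by_contra hnot
  obtain ⟨z, hzM, hz0, hint, hpiece⟩ := ak_intertwiner S hST y hy.1 ε hε hnot
  obtain ⟨e, heA, hep, hne, v, hv, a, ha, hva⟩ := ak_normalizer S hST z hzM hz0 hint
  have h1 := hpiece e heA hep
  have h2 : S.phi (star (z * e) * y) = 0 := by rw [hva]; exact hST.Mo_orth_GN y hy v hv a ha
  have h3 : ⟪(z * e) S.Om, y S.Om⟫_ℂ = S.phi (star (z * e) * y) := by
    unfold StData.phi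
    rw [ContinuousLinearMap.star_eq_adjoint, ContinuousLinearMap.mul_apply (ContinuousLinearMap.adjoint (z * e)) y,
      ContinuousLinearMap.adjoint_inner_right]
  rw [h3, h2] at h1
  have h4 : ‖(z * e) S.Om‖ = 0 := by
    have : (‖(z * e) S.Om‖ ^ 2 : ℝ) = 0 := by exact_mod_cast h1.symm
    exact pow_eq_zero_iff (two_ne_zero) |>.mp this
  have heM : e ∈ S.M := ((S.masa e).mp heA).1
  exact hne (S.sep _ (mul_mem hzM heM) (norm_eq_zero.mp h4))

end Claimed.Agent.R302
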