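/-
R302 / AK / Twist : the twisted pinching (B3).   Owner: helper100.   LEAF AK-Twist.
 z_P := sum_{e in P} (e1 e) y Psi(e).   |z_P| <= |y| (block diagonal).   T_P := sum_{e in P} (e1 e) rmul(Psi e) is a projection, decreasing in P, z_P Om = T_P (y Om).
 vn_sotTendsto_projInf + st_strong_lim: z_P -> z strongly, z in M.
 e z_P = z_P Psi(e) as soon as P refines {e, 1-e}.   |z_P Om|^2 = sum phi(K(e1 e) Psi(e)) >= c phi(h0).
 <z f Om, y Om> = |z f Om|^2 for projections f of A, because z f Om = rmul(f) T y Om.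
-/
import Claimed.Agent.R302.AK.Defs
import Claimed.Agent.R302.TR.Pou

set_option autoImplicit false

namespace Claimed.Agent.R302

open scoped InnerProductSpace
open Filter Topology

universe u
variable {H : Type u} [NormedAddCommGroup H] [InnerProductSpace ℂ H] [CompleteSpace H]

/-- the twisted pinching of `y` -/
noncomputable def aktZ {S : StData H} (y e1 : H →L[ℂ] H) (Ψ : (H →L[ℂ] H) → (H →L[ℂ] H)) (P : StPart S) : H →L[ℂ] H :=
  ∑ e ∈ P.cells, (e1 * e) * y * Ψ e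

/-- the projection implementing it -/
noncomputable def aktT {S : StData H} (e1 : H →L[ℂ] H) (Ψ : (H →L[ℂ] H) → (H →L[ℂ] H)) (P : StPart S) : H →L[ℂ] H :=
  ∑ e ∈ P.cells, (e1 * e) * S.rmul (Ψ e)

section
variable {S : StData H} {y : H →L[ℂ] H} {e1 h0 : H →L[ℂ] H} {c : ℝ} {Ψ : (H →L[ℂ] H) → (H →L[ℂ] H)}

theorem akt_proj_mul {e e' : H →L[ℂ] H} (he : S.IsProjA e) (he' : S.IsProjA e') : S.IsProjA (e * e') :=
  ⟨mul_mem he.1 he'.1, he.2.mul he'.2 (st_A_comm S he.1 he'.1)⟩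

theorem akt_cut_mul {e e' : H →L[ℂ] H} (h1 : S.IsProjA e1) (he : e ∈ S.A) (he' : e' ∈ S.A) :
    (e1 * e) * (e1 * e') = e1 * (e * e') := by
  calc (e1 * e) * (e1 * e') = e1 * (e * e1) * e' := by simp only [mul_assoc]
    _ = e1 * (e1 * e) * e' := by rw [(st_A_comm S he h1.1).eq]
    _ = (e1 * e1) * (e * e') := by simp only [mul_assoc]
    _ = _ := by rw [h1.2.isIdempotentElem.eq]

variable (hΨ : AkPsi S y e1 h0 c Ψ)
include hΨ

theorem akt_Z_mem (hy : y ∈ S.M) (P : StPart S) : aktZ y e1 Ψ P ∈ S.M :=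
  sum_mem fun e he => mul_mem (mul_mem (st_A_le_M S (mul_mem hΨ.e1_proj.1 (P.proj e he).1)) hy)
    (st_A_le_M S (hΨ.proj e (P.proj e he)).1)

theorem akt_Z_norm_le (P : StPart S) : ‖aktZ y e1 Ψ P‖ ≤ ‖y‖ := by
  have hf : ∀ e : P.cells, S.IsProjA (e1 * (e : H →L[ℂ] H)) := fun e => akt_proj_mul hΨ.e1_proj (P.proj e e.2)
  have hg : ∀ e : P.cells, S.IsProjA (Ψ (e : H →L[ℂ] H)) := fun e => hΨ.proj e (P.proj e e.2)
  have := tr_block_le (F := fun e : P.cells => e1 * (e : H →L[ℂ] H)) (G := fun e : P.cells => Ψ (e : H →L[ℂ] H))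
    (fun e => (hf e).2.isSelfAdjoint.star_eq) (fun e => (hf e).2.isIdempotentElem.eq)
    (fun e e' hne => by
      rw [akt_cut_mul hΨ.e1_proj (P.proj e e.2).1 (P.proj e' e'.2).1, P.orth e e.2 e' e'.2 (fun h => hne (Subtype.ext h)),
        mul_zero])
    (fun e => (hg e).2.isSelfAdjoint.star_eq) (fun e => (hg e).2.isIdempotentElem.eq)
    (fun e e' hne => hΨ.orth e e' (P.proj e e.2) (P.proj e' e'.2) (P.orth e e.2 e' e'.2 (fun h => hne (Subtype.ext h))))
    (fun _ => y) ‖y‖ (norm_nonneg _) (fun _ => le_rfl)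
  rwa [Finset.sum_coe_sort P.cells (fun e => e1 * e * y * Ψ e)] at this

/-- one term of `T_P` -/
theorem akt_term_proj {e : H →L[ℂ] H} (he : S.IsProjA e) : IsStarProjection ((e1 * e) * S.rmul (Ψ e)) :=
  (akt_proj_mul hΨ.e1_proj he).2.mul (st_rmul_A_proj S (hΨ.proj e he))
    ((st_rmul_mem S (st_rbdd_A S (hΨ.proj e he).1)) _ (st_A_le_M S (akt_proj_mul hΨ.e1_proj he).1)).symm

theorem akt_term_mul {e e' : H →L[ℂ] H} (he : S.IsProjA e) (he' : S.IsProjA e') :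
    ((e1 * e) * S.rmul (Ψ e)) * ((e1 * e') * S.rmul (Ψ e')) = (e1 * (e * e')) * S.rmul (Ψ e * Ψ e') := by
  have hc : S.rmul (Ψ e) * (e1 * e') = (e1 * e') * S.rmul (Ψ e) :=
    ((st_rmul_mem S (st_rbdd_A S (hΨ.proj e he).1)) _ (st_A_le_M S (akt_proj_mul hΨ.e1_proj he').1)).eq
  calc ((e1 * e) * S.rmul (Ψ e)) * ((e1 * e') * S.rmul (Ψ e'))
      = (e1 * e) * (S.rmul (Ψ e) * (e1 * e')) * S.rmul (Ψ e') := by simp only [mul_assoc]
    _ = ((e1 * e) * (e1 * e')) * (S.rmul (Ψ e) * S.rmul (Ψ e')) := by rw [hc]; simp only [mul_assoc]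
    _ = _ := by rw [akt_cut_mul hΨ.e1_proj he.1 he'.1, st_rmul_A_mul S (hΨ.proj e he).1 (hΨ.proj e' he').1]

theorem akt_T_proj (P : StPart S) : IsStarProjection (aktT e1 Ψ P) := by
  refine vn_isStarProjection_sum P.cells _ (fun e he => akt_term_proj hΨ (P.proj e he)) ?_
  intro e he e' he' hne
  rw [akt_term_mul hΨ (P.proj e he) (P.proj e' he'), P.orth e he e' he' hne, mul_zero, zero_mul]

theorem akt_T_anti : Antitone (fun P : StPart S => aktT e1 Ψ P) := by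
  intro P P' hPP'
  change aktT e1 Ψ P' ≤ aktT e1 Ψ P
  rw [(akt_T_proj hΨ P').le_iff_mul_eq_right (akt_T_proj hΨ P)]
  unfold aktT
  rw [Finset.mul_sum]
  refine Finset.sum_congr rfl fun e' he' => ?_
  obtain ⟨k, hk, hke⟩ := hPP' e' he'
  rw [Finset.sum_mul, Finset.sum_eq_single k]
  · rw [akt_term_mul hΨ (P.proj k hk) (P'.proj e' he'), hke]
    have h1 : e' * k = e' := by rw [(st_A_comm S (P'.proj e' he').1 (P.proj k hk).1).eq, hke]
    have h2 := hΨ.mono e' k (P'.proj e' he') (P.proj k hk) h1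
    rw [(st_A_comm S (hΨ.proj k (P.proj k hk)).1 (hΨ.proj e' (P'.proj e' he')).1).eq, h2]
  · intro e he hne
    rw [akt_term_mul hΨ (P.proj e he) (P'.proj e' he'), ← hke, ← mul_assoc e k e', P.orth e he k hk hne]
    simp
  · intro h; exact absurd hk h

theorem akt_Z_Om (hy : y ∈ S.M) (P : StPart S) : aktZ y e1 Ψ P S.Om = aktT e1 Ψ P (y S.Om) := by
  unfold aktZ aktT
  rw [sum_apply, sum_apply]
  refine Finset.sum_congr rfl fun e he => ?_
  change (e1 * e) (y (Ψ e S.Om)) = (e1 * e) (S.rmul (Ψ e) (y S.Om))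
  rw [st_rmul_spec S (st_rbdd_A S (hΨ.proj e (P.proj e he)).1) hy]

/-- `e z_P = z_P Psi(e)` for fine `P`. -/
theorem akt_Z_inter {e : H →L[ℂ] H} (he : S.IsProjA e) :
    ∀ᶠ P : StPart S in atTop, e * aktZ y e1 Ψ P = aktZ y e1 Ψ P * Ψ e := by
  obtain ⟨P0, hP0, -⟩ := st_part_of_proj S he
  filter_upwards [Filter.eventually_ge_atTop P0] with P hP
  unfold aktZ
  rw [Finset.mul_sum, Finset.sum_mul]
  refine Finset.sum_congr rfl fun e' he' => ?_
  have hpe' := P.proj e' he'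
  obtain ⟨k, hk, hke⟩ := hP e' he'
  have hcomm : e * e1 = e1 * e := (st_A_comm S he.1 hΨ.e1_proj.1).eq
  by_cases hkeq : k = e
  · subst hkeq
    have h1 : e' * k = e' := by rw [(st_A_comm S hpe'.1 he.1).eq, hke]
    have h2 := hΨ.mono e' k hpe' he h1
    calc k * (e1 * e' * y * Ψ e') = (k * e1) * e' * y * Ψ e' := by simp only [mul_assoc]
      _ = e1 * (k * e') * y * Ψ e' := by rw [hcomm]; simp only [mul_assoc]
      _ = e1 * e' * y * (Ψ e' * Ψ k) := by rw [hke, h2]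
      _ = _ := by simp only [mul_assoc]
  · have h0 : e * e' = 0 := by
      rw [← hke, ← mul_assoc, P0.orth e hP0 k hk (fun h => hkeq h.symm), zero_mul]
    have h1 : e' * e = 0 := by rw [(st_A_comm S hpe'.1 he.1).eq, h0]
    have h2 := hΨ.orth e' e hpe' he h1
    calc e * (e1 * e' * y * Ψ e') = (e * e1) * e' * y * Ψ e' := by simp only [mul_assoc]
      _ = e1 * (e * e') * y * Ψ e' := by rw [hcomm]; simp only [mul_assoc]
      _ = 0 := by rw [h0]; simp
      _ = e1 * e' * y * (Ψ e' * Ψ e) := by rw [h2, mul_zero]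
      _ = _ := by simp only [mul_assoc]

omit hΨ in
/-- `⟪p ξ, ξ⟫ = ‖p ξ‖²`. -/
theorem akt_proj_inner {p : H →L[ℂ] H} (hp : IsStarProjection p) (ξ : H) : ⟪p ξ, ξ⟫_ℂ = ((‖p ξ‖ ^ 2 : ℝ) : ℂ) := by
  rw [← vn_inner_sa hp.isSelfAdjoint, vn_proj_inner_self hp]

/-- lower bound for the mass of `z_P`. -/
theorem akt_T_mass (hy : y ∈ S.M) (P : StPart S) : c * (S.phi h0).re ≤ ‖aktT e1 Ψ P (y S.Om)‖ ^ 2 := by
  have hT := akt_T_proj hΨ P
  have h1 : ((‖aktT e1 Ψ P (y S.Om)‖ ^ 2 : ℝ) : ℂ) = ∑ e ∈ P.cells, S.phi (akK S y (e1 * e) * Ψ e) := by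
    rw [← akt_proj_inner hT, ← akt_Z_Om hΨ hy, ← st_phi_star_mul]
    unfold aktZ
    rw [star_sum, Finset.sum_mul, st_phi_sum]
    refine Finset.sum_congr rfl fun e he => ?_
    have hpe := P.proj e he
    have hf := akt_proj_mul hΨ.e1_proj hpe
    have hg := hΨ.proj e hpe
    have hM : star y * (e1 * e) * y ∈ S.M := mul_mem (mul_mem (star_mem hy) (st_A_le_M S hf.1)) hy
    unfold akK
    rw [st_EA_spec S hM hg.1, star_mul, star_mul, hf.2.isSelfAdjoint.star_eq, hg.2.isSelfAdjoint.star_eq]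
    rw [show Ψ e * (star y * (e1 * e)) * y = Ψ e * (star y * (e1 * e) * y) by simp only [mul_assoc]]
    exact st_phi_central S hg.1 hM
  have h2 : ‖aktT e1 Ψ P (y S.Om)‖ ^ 2 = ∑ e ∈ P.cells, (S.phi (akK S y (e1 * e) * Ψ e)).re := by
    have := congrArg Complex.re h1
    rwa [Complex.ofReal_re, Complex.re_sum] at this
  rw [h2, ← hΨ.sum P, st_phi_sum, Complex.re_sum, Finset.mul_sum]
  exact Finset.sum_le_sum fun e he => hΨ.heavy e (P.proj e he)

end

theorem ak_twist (S : StData H) {y : H →L[ℂ] H} (hy : y ∈ S.M) {e1 h0 : H →L[ℂ] H} {c : ℝ}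
    {Ψ : (H →L[ℂ] H) → (H →L[ℂ] H)} (hΨ : AkPsi S y e1 h0 c Ψ) :
    ∃ z ∈ S.M, z ≠ 0 ∧ (∀ e, S.IsProjA e → e * z = z * Ψ e) ∧
      ∀ e ∈ S.A, IsStarProjection e → ⟪(z * e) S.Om, y S.Om⟫_ℂ = (‖(z * e) S.Om‖ ^ 2 : ℝ) := by
  set T : H →L[ℂ] H := vn_projInf (fun P : StPart S => aktT e1 Ψ P) with hTdef
  have hTproj : IsStarProjection T := vn_projInf_isStarProjection _
  have hTlim : SotTendsto atTop (fun P : StPart S => aktT e1 Ψ P) T :=
    vn_sotTendsto_projInf (fun P => akt_T_proj hΨ P) (akt_T_anti hΨ)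
  have hlim : Tendsto (fun P : StPart S => aktZ y e1 Ψ P S.Om) atTop (𝓝 (T (y S.Om))) := by
    simp_rw [akt_Z_Om hΨ hy]
    exact hTlim (y S.Om)
  obtain ⟨z, hzM, -, hzΩ, hzlim⟩ := st_strong_lim S atTop (fun P : StPart S => aktZ y e1 Ψ P) ‖y‖
    (fun P => akt_Z_mem hΨ hy P) (fun P => akt_Z_norm_le hΨ P) _ hlim
  refine ⟨z, hzM, ?_, ?_, ?_⟩
  · -- nonvanishing
    intro hz0
    have h1 : c * (S.phi h0).re ≤ ‖T (y S.Om)‖ ^ 2 := by
      refine ge_of_tendsto' (((hTlim (y S.Om)).norm).pow 2) fun P => akt_T_mass hΨ hy P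
    rw [← hzΩ, hz0] at h1
    simp only [ContinuousLinearMap.zero_apply, norm_zero, ne_eq, OfNat.ofNat_ne_zero, not_false_eq_true, zero_pow] at h1
    have h2 : 0 < (S.phi h0).re := by
      have e := st_phi_star_mul_self S h0
      rw [hΨ.h0_proj.2.isSelfAdjoint.star_eq, hΨ.h0_proj.2.isIdempotentElem.eq] at e
      rw [e, Complex.ofReal_re]
      have : h0 S.Om ≠ 0 := fun h => hΨ.h0_ne (S.sep h0 (st_A_le_M S hΨ.h0_proj.1) h)
      positivity
    nlinarith [hΨ.c_pos]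
  · -- intertwining
    intro e he
    refine ContinuousLinearMap.ext fun ξ => ?_
    have l1 : Tendsto (fun P : StPart S => (e * aktZ y e1 Ψ P) ξ) atTop (𝓝 ((e * z) ξ)) :=
      (e.continuous.tendsto _).comp (hzlim ξ)
    have l2 : Tendsto (fun P : StPart S => (aktZ y e1 Ψ P * Ψ e) ξ) atTop (𝓝 ((z * Ψ e) ξ)) := hzlim (Ψ e ξ)
    refine tendsto_nhds_unique_of_eventuallyEq l1 l2 ?_
    filter_upwards [akt_Z_inter hΨ he] with P hP
    rw [hP]
  · -- pieces
    intro f hfA hf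
    have hρ : IsStarProjection (S.rmul f) := st_rmul_A_proj S ⟨hfA, hf⟩
    have hρM := st_rmul_mem S (st_rbdd_A S hfA)
    have hcomm : Commute (S.rmul f) T := by
      refine vn_commute_projInf (fun P => akt_T_proj hΨ P) fun P => ?_
      unfold aktT
      refine Commute.sum_right _ _ _ fun e he => ?_
      have hpe := P.proj e he
      refine Commute.mul_right (hρM _ (st_A_le_M S (akt_proj_mul hΨ.e1_proj hpe).1)) ?_
      change S.rmul f * S.rmul (Ψ e) = S.rmul (Ψ e) * S.rmul f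
      rw [← st_rmul_A_mul S hfA (hΨ.proj e hpe).1, ← st_rmul_A_mul S (hΨ.proj e hpe).1 hfA,
        (st_A_comm S hfA (hΨ.proj e hpe).1).eq]
    have e1' : (z * f) S.Om = (S.rmul f * T) (y S.Om) := by
      change z (f S.Om) = S.rmul f (T (y S.Om))
      rw [← hzΩ, st_rmul_spec S (st_rbdd_A S hfA) hzM]
    rw [e1']
    exact akt_proj_inner (hρ.mul hTproj hcomm) _

end Claimed.Agent.R302
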